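import Vale.Agent.P204.Full.Range.Defs

/-!
P204, lift of anti-invariant parts: pointwise algebra of the parametrix (helper72).
-/

namespace Vale.Agent.P204.Full.Range

open Matrix Vale.Agent.P204.Heart

variable (F : Frame) (x : E4)

theorem inv_mul : inv F x * F.P x = 1 :=
  Matrix.nonsing_inv_mul _ (isUnit_iff_ne_zero.mpr (F.det_pos x).ne')

theorem mul_inv : F.P x * inv F x = 1 :=
  Matrix.mul_nonsing_inv _ (isUnit_iff_ne_zero.mpr (F.det_pos x).ne')

theorem J0_sq : J0 * J0 = -1 := by
  ext i j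
  fin_cases i <;> fin_cases j <;> simp [J0, Matrix.mul_apply, Fin.sum_univ_four]

theorem acs_mul_P : acs F x * F.P x = F.P x * J0 := by
  rw [acs, Matrix.mul_assoc, inv_mul, Matrix.mul_one]

theorem pullC_eq (A : Matrix (Fin 4) (Fin 4) ℝ) (w : C2) :
    pullC A w = Matrix.of.symm (Aᵀ * Matrix.of w * A) := by
  funext a b
  simp only [pullC, Matrix.of_symm_apply, Matrix.mul_apply, Matrix.transpose_apply, Matrix.of_apply,
    Finset.sum_mul]
  rw [Finset.sum_comm]
  exact Finset.sum_congr rfl fun _ _ => Finset.sum_congr rfl fun _ _ => by ring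

theorem pullC_pullC (A B : Matrix (Fin 4) (Fin 4) ℝ) (w : C2) :
    pullC B (pullC A w) = pullC (A * B) w := by
  simp only [pullC_eq, Matrix.transpose_mul, Equiv.apply_symm_apply, Matrix.mul_assoc]

theorem pullC_one (w : C2) : pullC 1 w = w := by
  simp [pullC_eq]

theorem pullC_add (A : Matrix (Fin 4) (Fin 4) ℝ) (v w : C2) :
    pullC A (v + w) = pullC A v + pullC A w := by
  funext a b
  simp only [pullC, Pi.add_apply, mul_add, Finset.sum_add_distrib]

theorem pullC_smul (A : Matrix (Fin 4) (Fin 4) ℝ) (c : ℝ) (w : C2) :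
    pullC A (c • w) = c • pullC A w := by
  funext a b
  simp only [pullC, Pi.smul_apply, smul_eq_mul, Finset.mul_sum]
  exact Finset.sum_congr rfl fun _ _ => Finset.sum_congr rfl fun _ _ => by ring

theorem pmC_apply (A : Matrix (Fin 4) (Fin 4) ℝ) (w : C2) :
    pmC A w = (1 / 2 : ℝ) • (w - pullC A w) := by
  funext a b; simp [pmC]; ring

theorem pmC_add (A : Matrix (Fin 4) (Fin 4) ℝ) (v w : C2) : pmC A (v + w) = pmC A v + pmC A w := by
  funext a b; simp [pmC, pullC_add]; ring

theorem pmC_smul (A : Matrix (Fin 4) (Fin 4) ℝ) (c : ℝ) (w : C2) :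
    pmC A (c • w) = c • pmC A w := by
  funext a b; simp [pmC, pullC_smul]; ring

theorem pmC_sum {ι : Type} (s : Finset ι) (A : Matrix (Fin 4) (Fin 4) ℝ) (v : ι → C2) :
    pmC A (∑ i ∈ s, v i) = ∑ i ∈ s, pmC A (v i) :=
  map_sum (AddMonoidHom.mk' (pmC A) (pmC_add A)) v s

/-- anti-invariant parts commute with passing to frame components -/
theorem pullC_pmC (w : C2) : pullC (F.P x) (pmC (acs F x) w) = pmC J0 (pullC (F.P x) w) := by
  rw [pmC_apply, pmC_apply, pullC_smul, pullC_pullC, ← acs_mul_P, ← pullC_pullC (acs F x)]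
  congr 1
  funext a b
  simp [pullC, mul_sub, Finset.sum_sub_distrib]

theorem pullC_P_inj {v w : C2} (h : pullC (F.P x) v = pullC (F.P x) w) : v = w := by
  have := congrArg (pullC (inv F x)) h
  rwa [pullC_pullC, pullC_pullC, mul_inv, pullC_one, pullC_one] at this

theorem pullC_P_basis (k : Fin 2) : pullC (F.P x) (basis F x k) = sig k := by
  rw [basis, pullC_pullC, inv_mul, pullC_one]

theorem anti_pullC (A : Matrix (Fin 4) (Fin 4) ℝ) {w : C2} (hw : Anti w) : Anti (pullC A w) := by
  intro a b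
  simp only [pullC]
  rw [Finset.sum_comm, ← Finset.sum_neg_distrib]
  refine Finset.sum_congr rfl fun c _ => ?_
  rw [← Finset.sum_neg_distrib]
  exact Finset.sum_congr rfl fun d _ => by rw [hw c d]; ring

theorem pmC_J0 {w : C2} (hw : Anti w) :
    pmC J0 w = ((w 0 2 - w 1 3) / 2) • sig 0 + ((w 0 3 + w 1 2) / 2) • sig 1 := by
  funext a b
  have h0 : w 0 0 = 0 := by linarith [hw 0 0]
  have h1 : w 1 1 = 0 := by linarith [hw 1 1]
  have h2 : w 2 2 = 0 := by linarith [hw 2 2]
  have h3 : w 3 3 = 0 := by linarith [hw 3 3]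
  fin_cases a <;> fin_cases b <;>
    simp [pmC, pullC, J0, sig, Fin.sum_univ_four, Matrix.smul_apply, h0, h1, h2, h3, hw 0 1, hw 0 2, hw 0 3, hw 1 2,
      hw 1 3, hw 2 3] <;> ring

/-- the anti-invariant part in the moving basis -/
theorem pmC_acs_eq {w : C2} (hw : Anti w) :
    pmC (acs F x) w = ∑ k, coord F x k w • basis F x k := by
  apply pullC_P_inj F x
  rw [pullC_pmC, pmC_J0 (anti_pullC _ hw), Fin.sum_univ_two, pullC_add, pullC_smul, pullC_smul,
    pullC_P_basis, pullC_P_basis]
  rfl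

theorem coord_eq_sum (k : Fin 2) (w : C2) :
    coord F x k w =
      ∑ i, ∑ j, coord F x k (fun p q => if p = i ∧ q = j then 1 else 0) * w i j := by
  fin_cases k <;> simp [coord, pullC, Fin.sum_univ_four] <;> ring

/-- derivation of a basis form by an endomorphism -/
def der (S : Fin 4 → Fin 4 → ℝ) (B : C2) : C2 :=
  fun a b => ∑ c, (S c a * B c b - S c b * B c a)

theorem der_sig {S : Matrix (Fin 4) (Fin 4) ℝ} (hS : Sᵀ = S) (k : Fin 2) :
    pmC J0 (der (Matrix.of.symm S) (sig k)) = (Matrix.trace S / 2) • sig k := by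
  have h : ∀ i j, S i j = S j i := fun i j => congrFun (congrFun hS j) i
  funext a b
  fin_cases k <;> fin_cases a <;> fin_cases b <;>
    simp [pmC, pullC, der, J0, sig, Matrix.trace, Matrix.smul_apply, Fin.sum_univ_four, h 1 0, h 2 0, h 3 0, h 2 1,
      h 3 1, h 3 2] <;> ring

theorem pullC_der (L M S : Matrix (Fin 4) (Fin 4) ℝ) (hLM : L * M = 1) {B : C2} (hB : Anti B) :
    pullC L (der (Matrix.of.symm S) B) = der (Matrix.of.symm (M * S * L)) (pullC L B) := by
  have hd : ∀ (S : Matrix (Fin 4) (Fin 4) ℝ) (B : C2), Anti B →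
      Matrix.of (der (Matrix.of.symm S) B) = Sᵀ * Matrix.of B + Matrix.of B * S := by
    intro S B hB
    funext a b
    simp only [Matrix.of_apply, der, Matrix.add_apply, Matrix.mul_apply, Matrix.transpose_apply,
      Matrix.of_symm_apply, Finset.sum_sub_distrib, sub_eq_add_neg, Finset.sum_add_distrib]
    congr 1
    exact Finset.sum_congr rfl fun c _ => by rw [hB a c]; ring
  apply Matrix.of.injective
  rw [hd _ _ (anti_pullC L hB), pullC_eq, Equiv.apply_symm_apply, hd _ _ hB, pullC_eq,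
    Equiv.apply_symm_apply]
  have hTM : Mᵀ * Lᵀ = 1 := by rw [← Matrix.transpose_mul, hLM, Matrix.transpose_one]
  simp only [Matrix.transpose_mul, Matrix.mul_add, Matrix.add_mul]
  congr 1
  · calc _ = Lᵀ * Sᵀ * (Mᵀ * Lᵀ) * Matrix.of B * L := by rw [hTM]; simp [Matrix.mul_assoc]
      _ = _ := by simp [Matrix.mul_assoc]
  · calc _ = Lᵀ * Matrix.of B * (L * M) * S * L := by rw [hLM]; simp [Matrix.mul_assoc]
      _ = _ := by simp [Matrix.mul_assoc]

theorem anti_sig (k : Fin 2) : Anti (sig k) := by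
  intro a b; fin_cases k <;> fin_cases a <;> fin_cases b <;> simp [sig]

theorem anti_basis (k : Fin 2) : Anti (basis F x k) := anti_pullC _ (anti_sig k)

/-- the key identity: only the trace of a frame-symmetric endomorphism survives -/
theorem pmC_der (S : Matrix (Fin 4) (Fin 4) ℝ)
    (hS : (inv F x * S * F.P x)ᵀ = inv F x * S * F.P x) (k : Fin 2) :
    pmC (acs F x) (der (Matrix.of.symm S) (basis F x k)) =
      (Matrix.trace S / 2) • basis F x k := by
  apply pullC_P_inj F x
  rw [pullC_pmC, pullC_der _ (inv F x) S (mul_inv F x) (anti_basis F x k), pullC_P_basis,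
    der_sig hS, pullC_smul, pullC_P_basis, Matrix.trace_mul_cycle, mul_inv, Matrix.one_mul]

end Vale.Agent.P204.Full.Range
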