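import Vale.Agent.P204.Full.Op.Defs

/-!
P204, lift of anti-invariant parts: integrals over a compact parameter set (helper72).
-/

namespace Vale.Agent.P204.Full.Range

open MeasureTheory Filter Topology
open scoped ContDiff

variable {V P : Type} [NormedAddCommGroup V] [NormedSpace ℝ V] [FiniteDimensional ℝ V]
  [MeasurableSpace V] [BorelSpace V] [NormedAddCommGroup P] [NormedSpace ℝ P]
  [FiniteDimensional ℝ P] {μ : Measure V} [IsFiniteMeasureOnCompacts μ] {K : Set V}

set_option linter.unusedSectionVars false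

theorem integrableOn_slice {G : Type} [NormedAddCommGroup G] [NormedSpace ℝ G]
    (hK : IsCompact K) {g : V → P → G} (hg : Continuous fun p : V × P => g p.1 p.2) (x : P) :
    IntegrableOn (fun v => g v x) K μ :=
  (hg.comp (continuous_id.prodMk continuous_const)).continuousOn.integrableOn_compact hK

theorem hasFDerivAt_setInt {G : Type} [NormedAddCommGroup G] [NormedSpace ℝ G] [CompleteSpace G]
    (hK : IsCompact K) {g : V → P → G} (hg : ContDiff ℝ 1 fun p : V × P => g p.1 p.2) (x : P) :
    HasFDerivAt (fun y => ∫ v in K, g v y ∂μ) (∫ v in K, fderiv ℝ (g v) x ∂μ) x := by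
  have hd : Differentiable ℝ fun p : V × P => g p.1 p.2 := hg.differentiable one_ne_zero
  have hsl : ∀ v y, HasFDerivAt (g v)
      ((fderiv ℝ (fun p : V × P => g p.1 p.2) (v, y)).comp (ContinuousLinearMap.inr ℝ V P)) y :=
    fun v y => (hd (v, y)).hasFDerivAt.comp y (hasFDerivAt_prodMk_right v y)
  have hc : Continuous fun p : V × P => fderiv ℝ (g p.1) p.2 := by
    simp_rw [fun v y => (hsl v y).fderiv]
    exact (hg.continuous_fderiv one_ne_zero).clm_comp continuous_const
  obtain ⟨C, hC⟩ := (hK.prod (isCompact_closedBall x 1)).exists_bound_of_continuousOn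
    (f := fun p : V × P => fderiv ℝ (g p.1) p.2) hc.continuousOn
  have hKf : IsFiniteMeasure (μ.restrict K) :=
    isFiniteMeasure_restrict.2 hK.measure_lt_top.ne
  refine hasFDerivAt_integral_of_dominated_of_fderiv_le (𝕜 := ℝ) (bound := fun _ => C)
    (F' := fun y v => fderiv ℝ (g v) y) (Metric.closedBall_mem_nhds x one_pos)
    (Eventually.of_forall fun y => (integrableOn_slice hK hg.continuous y).aestronglyMeasurable)
    (integrableOn_slice hK hg.continuous x)
    (integrableOn_slice (g := fun v y => fderiv ℝ (g v) y) hK hc x).aestronglyMeasurable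
    ?_ (integrable_const _) (Eventually.of_forall fun v y _ => ?_)
  · filter_upwards [ae_restrict_mem hK.measurableSet] with v hv y hy
    exact hC (v, y) ⟨hv, hy⟩
  · rw [(hsl v y).fderiv]
    exact hsl v y

theorem contDiff_setInt_nat (hK : IsCompact K) (n : ℕ) :
    ∀ {G : Type} [NormedAddCommGroup G] [NormedSpace ℝ G] [CompleteSpace G] {g : V → P → G},
      ContDiff ℝ ∞ (fun p : V × P => g p.1 p.2) →
        ContDiff ℝ n fun y => ∫ v in K, g v y ∂μ := by
  induction n with
  | zero =>
    intro G _ _ _ g hg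
    exact contDiff_zero.2 (continuous_iff_continuousAt.2 fun x =>
      (hasFDerivAt_setInt hK (hg.of_le (mod_cast le_top)) x).continuousAt)
  | succ n ih =>
    intro G _ _ _ g hg
    have h1 := fun x => hasFDerivAt_setInt (μ := μ) hK (hg.of_le (mod_cast le_top)) x
    rw [show ((n + 1 : ℕ) : WithTop ℕ∞) = (n : WithTop ℕ∞) + 1 by norm_cast,
      contDiff_succ_iff_fderiv]
    refine ⟨fun x => (h1 x).differentiableAt, by simp, ?_⟩
    rw [funext fun x => (h1 x).fderiv]
    exact ih (ContDiff.fderiv (m := ∞) (f := fun p : V × P => g p.1)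
      (hg.comp ((contDiff_fst.comp contDiff_fst).prodMk contDiff_snd)) contDiff_snd le_rfl)

/-- a compact parameter integral of a smooth function is smooth -/
theorem contDiff_setInt {G : Type} [NormedAddCommGroup G] [NormedSpace ℝ G] [CompleteSpace G]
    (hK : IsCompact K) {g : V → P → G} (hg : ContDiff ℝ ∞ fun p : V × P => g p.1 p.2) :
    ContDiff ℝ ∞ fun y => ∫ v in K, g v y ∂μ :=
  contDiff_infty.2 fun n => contDiff_setInt_nat hK n hg

theorem pd_setInt {V : Type} [NormedAddCommGroup V] [NormedSpace ℝ V] [FiniteDimensional ℝ V]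
    [MeasurableSpace V] [BorelSpace V] {μ : Measure V} [IsFiniteMeasureOnCompacts μ] {K : Set V}
    (hK : IsCompact K) {g : V → E4 → ℝ} (hg : ContDiff ℝ ∞ fun p : V × E4 => g p.1 p.2)
    (c : Fin 4) (x : E4) :
    pd (fun y => ∫ v in K, g v y ∂μ) c x = ∫ v in K, pd (g v) c x ∂μ := by
  have h1 : ContDiff ℝ 1 fun p : V × E4 => g p.1 p.2 := hg.of_le (mod_cast le_top)
  rw [pd, (hasFDerivAt_setInt hK h1 x).fderiv, ContinuousLinearMap.integral_apply]
  · rfl
  have hc : Continuous fun p : V × E4 => fderiv ℝ (g p.1) p.2 :=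
    (ContDiff.fderiv (m := ∞) (f := fun p : V × E4 => g p.1)
      (n := ∞) (hg.comp ((contDiff_fst.comp contDiff_fst).prodMk contDiff_snd)) contDiff_snd
        le_rfl).continuous
  exact integrableOn_slice (g := fun v y => fderiv ℝ (g v) y) hK hc x

/-- partial derivative of a slice, jointly smooth -/
theorem contDiff_pd_slice {V : Type} [NormedAddCommGroup V] [NormedSpace ℝ V]
    {g : V → E4 → ℝ} (hg : ContDiff ℝ ∞ fun p : V × E4 => g p.1 p.2) (c : Fin 4) :
    ContDiff ℝ ∞ fun p : V × E4 => pd (g p.1) c p.2 :=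
  (ContDiff.fderiv (m := ∞) (f := fun p : V × E4 => g p.1)
    (hg.comp ((contDiff_fst.comp contDiff_fst).prodMk contDiff_snd)) contDiff_snd le_rfl).clm_apply
      contDiff_const

end Vale.Agent.P204.Full.Range
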