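import Vale.Agent.P204.Full.Range.Defs
import Vale.Agent.P204.Full.Range.Par
import Vale.Agent.P204.Full.Op.Smooth

/-!
P204, lift of anti-invariant parts: averages over rescaled amplitudes (helper72).
-/

namespace Vale.Agent.P204.Full.Range

open MeasureTheory Filter Topology Set
open scoped ContDiff

variable {R : ℝ} {a : E4 → E4 → ℝ}

theorem IsAmp.continuous (ha : IsAmp R a) : Continuous fun p : E4 × E4 => a p.1 p.2 :=
  ha.smooth.continuous

theorem IsAmp.smooth_left (ha : IsAmp R a) (t : E4) : ContDiff ℝ ∞ fun y => a y t :=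
  ha.smooth.comp (contDiff_id.prodMk contDiff_const)

theorem IsAmp.xPd (ha : IsAmp R a) (c : Fin 4) : IsAmp R (Range.xPd c a) where
  smooth := by
    have h := contDiff_pd_slice (g := fun t y => a y t)
      (ha.smooth.comp (contDiff_snd.prodMk contDiff_fst)) c
    exact h.comp (contDiff_snd.prodMk contDiff_fst)
  support x t ht := by
    simp [Range.xPd, pd, show (fun y => a y t) = fun _ => (0 : ℝ) from funext fun y => ha.support y t ht]

theorem IsAmp.add {b : E4 → E4 → ℝ} (ha : IsAmp R a) (hb : IsAmp R b) :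
    IsAmp R fun x t => a x t + b x t :=
  ⟨ha.smooth.add hb.smooth, fun x t ht => by simp [ha.support x t ht, hb.support x t ht]⟩

theorem IsAmp.mul_left {g : E4 → E4 → ℝ} (hg : ContDiff ℝ ∞ fun p : E4 × E4 => g p.1 p.2)
    (ha : IsAmp R a) : IsAmp R fun x t => g x t * a x t :=
  ⟨hg.mul ha.smooth, fun x t ht => by simp [ha.support x t ht]⟩

theorem IsAmp.sum {ι : Type} (s : Finset ι) {b : ι → E4 → E4 → ℝ} (hb : ∀ i ∈ s, IsAmp R (b i)) :
    IsAmp R fun x t => ∑ i ∈ s, b i x t :=
  ⟨ContDiff.sum fun i hi => (hb i hi).smooth,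
    fun x t ht => Finset.sum_eq_zero fun i hi => (hb i hi).support x t ht⟩

theorem IsAmp.bound (ha : IsAmp R a) {S : Set E4} (hS : IsCompact S) :
    ∃ A, 0 ≤ A ∧ ∀ x ∈ S, ∀ t, |a x t| ≤ A := by
  obtain ⟨A, hA⟩ := (hS.prod (isCompact_closedBall (0 : E4) R)).exists_bound_of_continuousOn
    (f := fun p : E4 × E4 => a p.1 p.2) ha.continuous.continuousOn
  refine ⟨max A 0, le_max_right _ _, fun x hx t => ?_⟩
  by_cases ht : R < ‖t‖
  · simp [ha.support x t ht]
  · exact (hA (x, t) ⟨hx, by simpa using not_lt.1 ht⟩).trans (le_max_left _ _)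

variable {G : Type} [NormedAddCommGroup G] [NormedSpace ℝ G] {f : E4 → G}

/-- the compact parameter set -/
def box (ε r R : ℝ) : Set (ℝ × E4) := Icc ε r ×ˢ Metric.closedBall 0 R

theorem isCompact_box (ε r R : ℝ) : IsCompact (box ε r R) :=
  isCompact_Icc.prod (isCompact_closedBall 0 R)

theorem volume_box (r R : ℝ) (hr : 0 ≤ r) :
    volume.real (box 0 r R) = r * volume.real (Metric.closedBall (0 : E4) R) := by
  rw [box, Measure.volume_eq_prod, Measure.real, Measure.prod_prod, ENNReal.toReal_mul,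
    Real.volume_Icc, sub_zero, ENNReal.toReal_ofReal hr, Measure.real]

theorem setInt_box (ha : IsAmp R a) (ε r : ℝ) (f : E4 → G) (x : E4) :
    ∫ p : ℝ × E4 in Icc ε r ×ˢ Set.univ, a x p.2 • f (x - p.1 • p.2) =
      ∫ p in box ε r R, a x p.2 • f (x - p.1 • p.2) :=
  setIntegral_eq_of_subset_of_forall_sdiff_eq_zero (measurableSet_Icc.prod .univ)
    (Set.prod_mono le_rfl (Set.subset_univ _)) fun p hp => by
      have : R < ‖p.2‖ := by
        by_contra h
        exact hp.2 ⟨hp.1.1, by simpa using not_lt.1 h⟩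
      simp [ha.support x p.2 this]

theorem opI_eq (ha : IsAmp R a) (r : ℝ) (f : E4 → G) :
    opI r a f = fun x => ∫ p in box 0 r R, a x p.2 • f (x - p.1 • p.2) :=
  funext fun x => setInt_box ha 0 r f x

theorem contDiff_integrand (ha : IsAmp R a) (hf : ContDiff ℝ ∞ f) :
    ContDiff ℝ ∞ fun q : (ℝ × E4) × E4 => a q.2 q.1.2 • f (q.2 - q.1.1 • q.1.2) :=
  (ha.smooth.comp (contDiff_snd.prodMk (contDiff_snd.comp contDiff_fst))).smul
    (hf.comp (contDiff_snd.sub
      ((contDiff_fst.comp contDiff_fst).smul (contDiff_snd.comp contDiff_fst))))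

theorem integrableOn_opI [CompleteSpace G] (ha : IsAmp R a) (hf : Continuous f) (ε r : ℝ)
    (x : E4) : IntegrableOn (fun p : ℝ × E4 => a x p.2 • f (x - p.1 • p.2)) (box ε r R) :=
  (((ha.continuous.comp (continuous_const.prodMk continuous_snd)).smul
      (hf.comp (continuous_const.sub (continuous_fst.smul continuous_snd)))).continuousOn).integrableOn_compact
    (isCompact_box ε r R)

theorem contDiff_opI [CompleteSpace G] (ha : IsAmp R a) (hf : ContDiff ℝ ∞ f) (r : ℝ) :
    ContDiff ℝ ∞ (opI r a f) := by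
  rw [opI_eq ha]
  exact contDiff_setInt (isCompact_box 0 r R) (contDiff_integrand ha hf)

/-- Leibniz rule under the integral -/
theorem fderiv_opI [CompleteSpace G] (ha : IsAmp R a) (hf : ContDiff ℝ ∞ f) (r : ℝ) (x : E4) :
    fderiv ℝ (opI r a f) x =
      (∑ c, (EuclideanSpace.proj (𝕜 := ℝ) c).smulRight (opI r (xPd c a) f x)) +
        opI r a (fderiv ℝ f) x := by
  have hd : Differentiable ℝ f := hf.differentiable (by simp)
  have hf' : ContDiff ℝ ∞ (fderiv ℝ f) := hf.fderiv_right le_rfl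
  have h1 := hasFDerivAt_setInt (μ := (volume : Measure (ℝ × E4))) (isCompact_box 0 r R)
    (g := fun p y => a y p.2 • f (y - p.1 • p.2))
    ((contDiff_integrand ha hf).of_le (mod_cast le_top)) x
  rw [← opI_eq ha] at h1
  rw [h1.fderiv, opI_eq ha r (fderiv ℝ f)]
  simp only [opI_eq (ha.xPd _) r f]
  have hi : ∀ c, IntegrableOn (fun p : ℝ × E4 => (EuclideanSpace.proj (𝕜 := ℝ) c).smulRight
      (Range.xPd c a x p.2 • f (x - p.1 • p.2))) (box 0 r R) := fun c =>
    (ContinuousLinearMap.smulRightL ℝ E4 G (EuclideanSpace.proj (𝕜 := ℝ) c)).integrable_comp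
      (integrableOn_opI (ha.xPd c) hf.continuous 0 r x)
  have hsum : ∀ c, (EuclideanSpace.proj (𝕜 := ℝ) c).smulRight
      (∫ p in box 0 r R, Range.xPd c a x p.2 • f (x - p.1 • p.2)) =
        ∫ p in box 0 r R, (EuclideanSpace.proj (𝕜 := ℝ) c).smulRight
          (Range.xPd c a x p.2 • f (x - p.1 • p.2)) := fun c =>
    ((ContinuousLinearMap.smulRightL ℝ E4 G (EuclideanSpace.proj (𝕜 := ℝ) c)).integral_comp_comm
      (integrableOn_opI (ha.xPd c) hf.continuous 0 r x)).symm
  simp only [hsum]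
  rw [← integral_finsetSum _ fun c _ => (hi c).integrable,
    ← integral_add (integrable_finsetSum _ fun c _ => (hi c).integrable)
      (integrableOn_opI ha hf'.continuous 0 r x)]
  refine setIntegral_congr_fun (isCompact_box 0 r R).measurableSet fun p _ => ?_
  have hA : DifferentiableAt ℝ (fun y => a y p.2) x :=
    ((ha.smooth_left p.2).differentiable (by simp)) x
  have hF : HasFDerivAt (fun y => f (y - p.1 • p.2)) (fderiv ℝ f (x - p.1 • p.2)) x := by
    exact ((hd (x - p.1 • p.2)).hasFDerivAt.comp x ((hasFDerivAt_id x).sub_const (p.1 • p.2)))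
  rw [(hA.hasFDerivAt.fun_smul hF).fderiv, add_comm]
  ext v
  simp only [add_apply, _root_.smul_apply, ContinuousLinearMap.smulRight_apply,
    FunLike.coe_sum, Finset.sum_apply, PiLp.proj_apply,
    smul_smul, ← Finset.sum_smul]
  congr 2
  rw [Op.fderiv_apply_eq_sum (fun y => a y p.2) x v]
  simp [Range.xPd]

/-- bound of the average -/
theorem norm_opI_le (ha : IsAmp R a) {A B r : ℝ} (hr : 0 ≤ r) {x : E4}
    (hA : ∀ t, |a x t| ≤ A) (hA0 : 0 ≤ A) (hB : ∀ y, ‖f y‖ ≤ B) :
    ‖opI r a f x‖ ≤ r * (volume.real (Metric.closedBall (0 : E4) R) * A * B) := by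
  rw [opI_eq ha]
  refine (norm_setIntegral_le_of_norm_le_const (isCompact_box 0 r R).measure_lt_top
    fun p _ => ?_).trans_eq (b := A * B * volume.real (box 0 r R)) rfl |>.trans_eq ?_
  · rw [norm_smul, Real.norm_eq_abs]
    exact mul_le_mul (hA _) (hB _) (norm_nonneg _) hA0
  · rw [volume_box r R hr]; ring

/-- every derivative of the average is small with the length of the interval -/
theorem exists_norm_iteratedFDeriv_opI_le (n : ℕ) :
    ∀ {a : E4 → E4 → ℝ}, IsAmp R a → ∀ {S : Set E4}, IsCompact S → ∃ C, 0 ≤ C ∧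
      ∀ {G : Type} [NormedAddCommGroup G] [NormedSpace ℝ G] [CompleteSpace G] {f : E4 → G},
        ContDiff ℝ ∞ f → ∀ r, 0 ≤ r → ∀ B,
          (∀ j ≤ n, ∀ y, ‖iteratedFDeriv ℝ j f y‖ ≤ B) →
            ∀ x ∈ interior S, ‖iteratedFDeriv ℝ n (opI r a f) x‖ ≤ r * C * B := by
  induction n with
  | zero =>
    intro a ha S hS
    obtain ⟨A, hA0, hA⟩ := ha.bound hS
    refine ⟨volume.real (Metric.closedBall (0 : E4) R) * A,
      mul_nonneg measureReal_nonneg hA0, fun {G} _ _ _ {f} _ r hr B hB x hx => ?_⟩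
    rw [norm_iteratedFDeriv_zero, mul_assoc]
    exact norm_opI_le ha hr (hA x (interior_subset hx)) hA0 fun y => by
      simpa using hB 0 le_rfl y
  | succ n ih =>
    intro a ha S hS
    choose C hC0 hC using fun c => ih (ha.xPd c) hS
    obtain ⟨D, hD0, hD⟩ := ih ha hS
    refine ⟨(∑ c, C c) + D, add_nonneg (Finset.sum_nonneg fun c _ => hC0 c) hD0,
      fun {G} _ _ _ {f} hf r hr B hB x hx => ?_⟩
    rw [← norm_iteratedFDeriv_fderiv, funext fun y => fderiv_opI ha hf r y]
    have hI : ∀ c, ContDiff ℝ ∞ (opI r (xPd c a) f) := fun c => contDiff_opI (ha.xPd c) hf r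
    have hf' : ContDiff ℝ ∞ (fderiv ℝ f) := hf.fderiv_right le_rfl
    have hg : ∀ c, ContDiff ℝ n fun y =>
        (EuclideanSpace.proj (𝕜 := ℝ) c).smulRight (opI r (xPd c a) f y) := fun c =>
      ((ContinuousLinearMap.smulRightL ℝ E4 G (EuclideanSpace.proj (𝕜 := ℝ) c)).contDiff.comp
        (hI c)).of_le (mod_cast le_top)
    rw [fun_iteratedFDeriv_add_apply (ContDiff.sum fun c _ => hg c).contDiffAt
      ((contDiff_opI ha hf' r).of_le (mod_cast le_top)).contDiffAt,
      iteratedFDeriv_fun_sum_apply fun c _ => (hg c).contDiffAt]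
    refine (norm_add_le _ _).trans ?_
    rw [mul_add, add_mul, Finset.mul_sum, Finset.sum_mul]
    refine add_le_add ((norm_sum_le _ _).trans (Finset.sum_le_sum fun c _ => ?_)) ?_
    · refine (ContinuousLinearMap.norm_iteratedFDeriv_comp_left
        (ContinuousLinearMap.smulRightL ℝ E4 G (EuclideanSpace.proj (𝕜 := ℝ) c))
        (hI c).contDiffAt (mod_cast le_top)).trans ?_
      have h1 : ‖ContinuousLinearMap.smulRightL ℝ E4 G (EuclideanSpace.proj (𝕜 := ℝ) c)‖ ≤ 1 :=
        ContinuousLinearMap.opNorm_le_bound _ zero_le_one fun v => by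
          refine (ContinuousLinearMap.norm_smulRight_apply _ _).trans_le ?_
          refine mul_le_mul_of_nonneg_right ?_ (norm_nonneg v)
          exact ContinuousLinearMap.opNorm_le_bound _ zero_le_one fun w => by
            simpa using PiLp.norm_apply_le w c
      refine (mul_le_mul_of_nonneg_right h1 (norm_nonneg _)).trans ?_
      rw [one_mul]
      exact hC c hf r hr B (fun j hj => hB j (Nat.le_succ_of_le hj)) x hx
    · exact hD hf' r hr B (fun j hj y => by
        rw [norm_iteratedFDeriv_fderiv]; exact hB (j + 1) (Nat.succ_le_succ hj) y) x hx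

end Vale.Agent.P204.Full.Range
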