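import Vale.Agent.P204.Full.Op.Defs
import Vale.Agent.P204.Heart.Defs

/-!
P204, lift of anti-invariant parts: the local parametrix (helper72).

For a frame `P` the operator `Pop` inverts `pm ∘ d` up to `pm d (Pop η) = pm η + Eop η`, where every
component of `Pop` and `Eop` is a finite sum of averages `opI` over the segment `[0, r]` of rescaled
compactly supported amplitudes and, for `Eop`, of averages `opE` at the fixed scale `r`.
-/

namespace Vale.Agent.P204.Full.Range

open MeasureTheory Vale.Agent.P204.Heart
open scoped ContDiff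

/-- an amplitude: smooth in both variables, supported in `‖t‖ ≤ R` -/
structure IsAmp (R : ℝ) (a : E4 → E4 → ℝ) : Prop where
  smooth : ContDiff ℝ ∞ fun p : E4 × E4 => a p.1 p.2
  support : ∀ x t, R < ‖t‖ → a x t = 0

/-- average over the scales between `0` and `r` -/
noncomputable def opI {G : Type} [NormedAddCommGroup G] [NormedSpace ℝ G] (r : ℝ)
    (a : E4 → E4 → ℝ) (f : E4 → G) (x : E4) : G :=
  ∫ p : ℝ × E4 in Set.Icc 0 r ×ˢ Set.univ, a x p.2 • f (x - p.1 • p.2)

/-- average at the scale `r` -/
noncomputable def opE {G : Type} [NormedAddCommGroup G] [NormedSpace ℝ G] (r : ℝ)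
    (a : E4 → E4 → ℝ) (f : E4 → G) (x : E4) : G :=
  ∫ t, a x t • f (x - r • t)

/-- derivative of an amplitude in the space variable -/
noncomputable def xPd (c : Fin 4) (a : E4 → E4 → ℝ) (x t : E4) : ℝ := pd (fun y => a y t) c x

/-- inverse frame -/
noncomputable def inv (F : Frame) (x : E4) : Matrix (Fin 4) (Fin 4) ℝ := (F.P x)⁻¹

/-- radial profile -/
noncomputable def prof (r : ℝ) : ℝ := Real.smoothTransition (2 - r)

/-- mass of the profile -/
noncomputable def profMass : ℝ := ∫ u : E4, prof (‖u‖ ^ 2)

/-- the kernel: radial in the frame, unit mass (`qf` is the squared frame length) -/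
noncomputable def ker (F : Frame) (x t : E4) : ℝ :=
  prof (qf F x t) / ((F.P x).det * profMass)

/-- anti-invariant basis forms in frame components -/
def sig : Fin 2 → C2 :=
  ![![![0, 0, 1, 0], ![0, 0, 0, -1], ![-1, 0, 0, 0], ![0, 1, 0, 0]],
    ![![0, 0, 0, 1], ![0, 0, 1, 0], ![0, -1, 0, 0], ![-1, 0, 0, 0]]]

/-- anti-invariant basis forms at a point -/
noncomputable def basis (F : Frame) (x : E4) (k : Fin 2) : C2 := pullC (inv F x) (sig k)

/-- coordinates of the anti-invariant part with respect to `basis` -/
noncomputable def coord (F : Frame) (x : E4) (k : Fin 2) (w : C2) : ℝ :=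
  ![(pullC (F.P x) w 0 2 - pullC (F.P x) w 1 3) / 2,
    (pullC (F.P x) w 0 3 + pullC (F.P x) w 1 2) / 2] k

/-- the complex structure of the frame -/
noncomputable def acs (F : Frame) (x : E4) : Matrix (Fin 4) (Fin 4) ℝ := F.P x * J0 * inv F x

/-- amplitude of the parametrix: component `b` against entry `(i, j)` -/
noncomputable def ampP (F : Frame) (b i j : Fin 4) (x t : E4) : ℝ :=
  2 * ∑ k, ∑ c, basis F x k c b * (ker F x t * t c) *
    coord F x k (fun p q => if p = i ∧ q = j then 1 else 0)

/-- the local parametrix -/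
noncomputable def Pop (F : Frame) (r : ℝ) (η : E4 → C2) (x : E4) : C1 :=
  fun b => ∑ i, ∑ j, opI r (ampP F b i j) (fun y => η y i j) x

/-- the error of the parametrix -/
noncomputable def Eop (F : Frame) (r : ℝ) (η : E4 → C2) (x : E4) : C2 :=
  fun a b => pmC (acs F x) (d1 (Pop F r η) x) a b - pmC (acs F x) (η x) a b

end Vale.Agent.P204.Full.Range
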