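import Vale.Agent.P204.Full.Range.Ker
import Vale.Agent.P204.Full.Global.JRead
import Vale.Agent.P204.Full.Alg.Frame

/-!
P204, lift of anti-invariant parts: a global frame inducing `J` in a chart of the atlas (helper19).
-/

namespace Vale.Agent.P204.Full.Range

open Metric Matrix Vale.Agent.P204.Heart
open scoped Manifold ContDiff Topology

universe u

/-- a matrix near the identity has positive determinant -/
theorem det_pos_of_near_one {E : Matrix (Fin 4) (Fin 4) ℝ} (hE : ∀ p q, |E p q| ≤ 1 / 100) :
    0 < (1 + E).det := by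
  have hne : ∀ t ∈ Set.Icc (0 : ℝ) 1, (1 + t • E).det ≠ 0 := by
    intro t ht
    have hb : ∀ p q, |t * E p q| ≤ 1 / 100 := fun p q => by
      rw [abs_mul, abs_of_nonneg ht.1]
      exact (mul_le_of_le_one_left (abs_nonneg _) ht.2).trans (hE p q)
    refine det_ne_zero_of_sum_row_lt_diag fun k => ?_
    calc ∑ j ∈ Finset.univ.erase k, ‖(1 + t • E) k j‖
        ≤ ∑ _j ∈ Finset.univ.erase k, (1 / 100 : ℝ) := Finset.sum_le_sum fun j hj => by
          rw [Real.norm_eq_abs, Matrix.add_apply, Matrix.smul_apply, smul_eq_mul,
            Matrix.one_apply_ne (Finset.ne_of_mem_erase hj).symm, zero_add]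
          exact hb k j
      _ < ‖(1 + t • E) k k‖ := by
          rw [Finset.sum_const, Finset.card_erase_of_mem (Finset.mem_univ k), Real.norm_eq_abs,
            Matrix.add_apply, Matrix.smul_apply, smul_eq_mul, Matrix.one_apply_eq]
          have h := abs_le.1 (hb k k)
          have h' := le_abs_self (1 + t * E k k)
          simp
          linarith
  by_contra hle
  have hcont : Continuous fun t : ℝ => (1 + t • E).det := by
    exact Continuous.matrix_det (continuous_const.add (continuous_id.smul continuous_const))
  obtain ⟨t, ht, h0⟩ := intermediate_value_Icc' zero_le_one hcont.continuousOn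
    (show (0 : ℝ) ∈ Set.Icc ((1 + (1 : ℝ) • E).det) ((1 + (0 : ℝ) • E).det) by
      rw [one_smul, zero_smul, add_zero, det_one]
      exact ⟨not_lt.1 hle, zero_le_one⟩)
  exact hne t ht h0

/-- cut-off between the chart balls -/
noncomputable def frameBump : ContDiffBump (0 : E4) where
  rIn := 3
  rOut := 7 / 2
  rIn_pos := by norm_num
  rIn_lt_rOut := by norm_num

variable {M : Type u} [TopologicalSpace M] [ChartedSpace E4 M] [IsManifold (𝓡 4) ∞ M]

/-- a global frame inducing `J` on the closed ball of radius three of a chart -/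
theorem exists_frame (S : Setup M) (i : Fin S.at_.n) :
    ∃ F : Heart.Frame, NearFrame F ∧
      ∀ y ∈ closedBall (0 : E4) 3, acs F y = readJ (S.at_.chart i) S.J y := by
  set c := S.at_.chart i
  have hcc := S.at_.mem_maximal i
  have ht : closedBall (0 : E4) 4 ⊆ c.target := S.at_.ball_subset i
  let P : E4 → Matrix (Fin 4) (Fin 4) ℝ := fun y =>
    1 + frameBump y • (frame (readJ c S.J y) - 1)
  have hnear : ∀ y ∈ closedBall (0 : E4) 4, Alg.Near (readJ c S.J y) := fun y hy =>
    ⟨readJ_mul_self S.isJ hcc (ht hy), S.at_.near_std i y hy⟩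
  have houter : ∀ y ∉ closedBall (0 : E4) (7 / 2), frameBump y = 0 := fun y hy => by
    have hy' : (7 / 2 : ℝ) < dist y 0 := not_le.1 hy
    exact frameBump.zero_of_le_dist hy'.le
  have hb : ∀ y p q, |(frameBump y • (frame (readJ c S.J y) - 1)) p q| ≤ 1 / 100 := by
    intro y p q
    by_cases hy : y ∈ closedBall (0 : E4) (7 / 2)
    · have h := (hnear y (closedBall_subset_closedBall (by norm_num) hy)).frame_sub_one p q
      rw [Matrix.smul_apply, smul_eq_mul, Matrix.sub_apply, abs_mul,
        abs_of_nonneg frameBump.nonneg]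
      exact ((mul_le_of_le_one_left (abs_nonneg _) frameBump.le_one).trans h).trans (by norm_num)
    · simp [houter y hy]
  have hsm : ∀ p q, ContDiff ℝ ∞ fun y => P y p q := by
    intro p q
    refine contDiff_iff_contDiffAt.2 fun y => ?_
    by_cases hy : y ∈ closedBall (0 : E4) (7 / 2)
    · have hn := c.open_target.mem_nhds (ht (closedBall_subset_closedBall (by norm_num) hy))
      have hA := fun p q => (contDiffOn_readJ S.isJ hcc p q).contDiffAt hn
      have hfr : ContDiffAt ℝ ∞ (fun z => frame (readJ c S.J z) p q) y := by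
        fin_cases q <;> simp [frame] <;> first | exact contDiffAt_const | exact hA p _
      simp only [P, Matrix.add_apply, Matrix.smul_apply, smul_eq_mul, Matrix.sub_apply]
      exact contDiffAt_const.add (frameBump.contDiff.contDiffAt.mul (hfr.sub contDiffAt_const))
    · refine (contDiffAt_const (c := (1 : Matrix (Fin 4) (Fin 4) ℝ) p q)).congr_of_eventuallyEq ?_
      filter_upwards [isClosed_closedBall.isOpen_compl.mem_nhds hy] with z hz
      simp [P, houter z hz]
  let F : Heart.Frame := ⟨P, hsm, fun y => det_pos_of_near_one (hb y)⟩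
  refine ⟨F, fun y p q => ?_, fun y hy => ?_⟩
  · show |P y p q - _| ≤ _
    simp only [P, Matrix.add_apply, add_sub_cancel_left]
    exact hb y p q
  · have h1 : frameBump y = 1 := frameBump.one_of_mem_closedBall hy
    have hP : F.P y = frame (readJ c S.J y) := by
      show P y = _
      simp [P, h1]
    have hmf := (hnear y (closedBall_subset_closedBall (by norm_num) hy)).mul_frame
    have hdet : IsUnit (frame (readJ c S.J y)).det :=
      isUnit_iff_ne_zero.2 (hP ▸ (F.det_pos y).ne')
    rw [acs, inv, hP, ← hmf, Matrix.mul_assoc, Matrix.mul_nonsing_inv _ hdet, Matrix.mul_one]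

end Vale.Agent.P204.Full.Range
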