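import Vale.Agent.P204.Full.Range.Scale
import Vale.Agent.P204.Full.LogTest.Trans

/-!
P204, lift of anti-invariant parts: moving smooth coefficient fields between the model space and
anti-invariant forms, with bounds in every `cN` (helper27).
-/

namespace Vale.Agent.P204.Full.Range

set_option linter.unusedSectionVars false

open Set Metric Filter
open scoped Manifold ContDiff Topology BigOperators

universe u

/-- smooth coefficient fields on the model space -/
noncomputable def smoothSub : Submodule ℝ (E4 → C2) where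
  carrier := {f | ContDiff ℝ ∞ f}
  zero_mem' := show ContDiff ℝ ∞ (0 : E4 → C2) from contDiff_const
  add_mem' {f g} hf hg := show ContDiff ℝ ∞ (f + g) from ContDiff.add hf hg
  smul_mem' r f hf := show ContDiff ℝ ∞ (r • f) from ContDiff.const_smul r hf

theorem mem_smoothSub {f : E4 → C2} : f ∈ smoothSub ↔ ContDiff ℝ ∞ f := Iff.rfl

theorem contDiff_coe (W : smoothSub) : ContDiff ℝ ∞ W.1 := W.2

/-- antisymmetric part of a coefficient matrix -/
noncomputable def asymL : C2 →L[ℝ] C2 :=
  LinearMap.toContinuousLinearMap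
    { toFun := fun W a b => (W a b - W b a) / 2
      map_add' := fun U W => by funext a b; simp; ring
      map_smul' := fun r W => by funext a b; simp; ring }

theorem asymL_apply (W : C2) (a b : Fin 4) : asymL W a b = (W a b - W b a) / 2 := rfl

theorem anti_asymL (W : C2) : Anti (asymL W) := fun a b => by
  simp only [asymL_apply]; ring

theorem asymL_of_anti {W : C2} (h : Anti W) : asymL W = W := by
  funext a b
  rw [asymL_apply, h a b]
  ring

variable {M : Type u} [TopologicalSpace M] [ChartedSpace E4 M] [IsManifold (𝓡 4) ∞ M]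

/-! ### reading with a cut-off -/

theorem readC_rho_eq_zero (S : Setup M) (i : Fin S.at_.n) (w : M → E4 → E4 → ℝ) {y : E4}
    (ht : y ∈ (S.at_.chart i).target) (hy : y ∉ ball (0 : E4) 1) :
    S.read i (smulFn (S.at_.rho i) w) y = 0 := by
  have h : S.at_.rho i ((S.at_.chart i).symm y) = 0 := by
    by_contra h
    exact hy ((S.at_.chart i).right_inv ht ▸ (S.mem_of_rho_ne h).2)
  show readC (S.at_.chart i) (smulFn (S.at_.rho i) w) y = 0
  rw [readC_smulFn, h, zero_smul]

theorem indicator_read_eq_zero (S : Setup M) (i : Fin S.at_.n) (w : M → E4 → E4 → ℝ) {y : E4}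
    (hy : y ∉ ball (0 : E4) 1) :
    (S.at_.chart i).target.indicator (S.read i (smulFn (S.at_.rho i) w)) y = 0 := by
  by_cases ht : y ∈ (S.at_.chart i).target
  · rw [indicator_of_mem ht, readC_rho_eq_zero S i w ht hy]
  · exact indicator_of_notMem ht _

theorem contDiff_indicator_read (S : Setup M) (i : Fin S.at_.n) (w : Form M) :
    ContDiff ℝ ∞
      ((S.at_.chart i).target.indicator (S.read i (smulFn (S.at_.rho i) w.1))) := by
  refine contDiff_iff_contDiffAt.2 fun y => ?_
  by_cases ht : y ∈ (S.at_.chart i).target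
  · refine (((IsTwoForm.smulFn w.2 (S.at_.rho_smooth i)).contDiffAt_readC
      (S.at_.mem_maximal i) ht)).congr_of_eventuallyEq ?_
    exact eventually_of_mem ((S.at_.chart i).open_target.mem_nhds ht) fun z hz =>
      indicator_of_mem hz _
  · have hy : y ∉ closedBall (0 : E4) 1 := fun h =>
      ht (S.closedBall3_subset i (closedBall_subset_closedBall (by norm_num) h))
    exact (contDiffAt_const (c := (0 : C2))).congr_of_eventuallyEq
      (eventually_of_mem (isClosed_closedBall.isOpen_compl.mem_nhds hy) fun z hz =>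
        indicator_read_eq_zero S i w.1 fun h => hz (ball_subset_closedBall h))

/-- `rho i • w` read in the chart `i` and extended by zero -/
noncomputable def cutRead (S : Setup M) (i : Fin S.at_.n) : Form M →ₗ[ℝ] smoothSub where
  toFun w := ⟨(S.at_.chart i).target.indicator (S.read i (smulFn (S.at_.rho i) w.1)),
    contDiff_indicator_read S i w⟩
  map_add' v w := by
    refine Subtype.ext (funext fun y => funext fun a => funext fun b => ?_)
    by_cases ht : y ∈ (S.at_.chart i).target
    · simp [indicator_of_mem ht, Setup.read, readC, smulFn, mul_add]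
    · simp [indicator_of_notMem ht]
  map_smul' r w := by
    refine Subtype.ext (funext fun y => funext fun a => funext fun b => ?_)
    by_cases ht : y ∈ (S.at_.chart i).target
    · simp [indicator_of_mem ht, Setup.read, readC, smulFn]
      ring
    · simp [indicator_of_notMem ht]

theorem cutRead_of_mem (S : Setup M) (i : Fin S.at_.n) (w : Form M) {y : E4}
    (ht : y ∈ (S.at_.chart i).target) :
    (cutRead S i w).1 y = S.at_.rho i ((S.at_.chart i).symm y) • S.read i w.1 y :=
  indicator_of_mem ht _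

theorem cutRead_eq_zero (S : Setup M) (i : Fin S.at_.n) (w : Form M) {y : E4}
    (hy : y ∉ ball (0 : E4) 1) : (cutRead S i w).1 y = 0 :=
  indicator_read_eq_zero S i w.1 hy

theorem anti_cutRead (S : Setup M) (i : Fin S.at_.n) (w : Form M) (y : E4) :
    Anti ((cutRead S i w).1 y) := by
  by_cases ht : y ∈ (S.at_.chart i).target
  · rw [cutRead_of_mem S i w ht]
    intro a b
    show _ * S.read i w.1 y b a = -(_ * S.read i w.1 y a b)
    rw [show S.read i w.1 y b a = -S.read i w.1 y a b from
      (IsTwoForm.isAltField w.2).anti_readC _ y a b]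
    ring
  · intro a b
    simp [cutRead_eq_zero S i w (y := y) fun h =>
      ht (S.closedBall3_subset i (closedBall_subset_closedBall (by norm_num)
        (ball_subset_closedBall h)))]

theorem norm_cutRead_le (S : Setup M) (i : Fin S.at_.n) (w : Form M) (y : E4) :
    ‖(cutRead S i w).1 y‖ ≤ S.cN 0 w.1 := by
  by_cases hy : y ∈ ball (0 : E4) 1
  · have h3 : y ∈ closedBall (0 : E4) 3 :=
      closedBall_subset_closedBall (by norm_num) (ball_subset_closedBall hy)
    rw [cutRead_of_mem S i w (S.closedBall3_subset i h3), norm_smul, Real.norm_eq_abs,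
      abs_of_nonneg (S.at_.rho_nonneg i _)]
    refine (mul_le_of_le_one_left (norm_nonneg _) ?_).trans (S.read_le_cN i w.2 h3)
    rw [← S.at_.rho_sum ((S.at_.chart i).symm y)]
    exact Finset.single_le_sum (fun k _ => S.at_.rho_nonneg k _) (Finset.mem_univ i)
  · rw [cutRead_eq_zero S i w hy, norm_zero]
    exact S.cN_nonneg 0 _

theorem exists_deriv_cutRead_le (S : Setup M) (i : Fin S.at_.n) (N : ℕ) :
    ∃ C, 0 ≤ C ∧ ∀ w : Form M, ∀ j ≤ N, ∀ y,
      ‖iteratedFDeriv ℝ j (cutRead S i w).1 y‖ ≤ C * S.cN N w.1 := by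
  obtain ⟨C, hC, h⟩ := S.exists_cN_smulFn N (S.at_.rho_smooth i)
  refine ⟨C, hC, fun w j hj y => ?_⟩
  by_cases hy : y ∈ closedBall (0 : E4) 3
  · have hev : (cutRead S i w).1 =ᶠ[𝓝 y] S.read i (smulFn (S.at_.rho i) w.1) :=
      eventually_of_mem ((S.at_.chart i).open_target.mem_nhds (S.closedBall3_subset i hy))
        fun z hz => indicator_of_mem hz _
    rw [(hev.iteratedFDeriv ℝ j).eq_of_nhds]
    exact (S.deriv_le_cN hj i (IsTwoForm.smulFn w.2 (S.at_.rho_smooth i)) hy).trans (h _ w.2)
  · have hev : (cutRead S i w).1 =ᶠ[𝓝 y] fun _ => (0 : C2) :=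
      eventually_of_mem (isClosed_closedBall.isOpen_compl.mem_nhds hy) fun z hz =>
        cutRead_eq_zero S i w fun h =>
          hz (closedBall_subset_closedBall (by norm_num) (ball_subset_closedBall h))
    rw [(hev.iteratedFDeriv ℝ j).eq_of_nhds, iteratedFDeriv_fun_zero, Pi.zero_apply, norm_zero]
    exact mul_nonneg hC (S.cN_nonneg N _)

/-! ### extension from a chart -/

variable [T2Space M]

omit [IsManifold (𝓡 4) ∞ M] [T2Space M] in
theorem extC_eq_zero_of_notMem {c : OpenPartialHomeomorph M E4} {W : E4 → C2} {Q : Set E4}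
    (h0 : ∀ y ∉ Q, W y = 0) {x : M} (hx : x ∉ c.symm '' Q) : extC c W x = 0 := by
  by_cases hxs : x ∈ c.source
  · funext p q
    have h : W (c x) = 0 := h0 _ fun hQ => hx ⟨c x, hQ, c.left_inv hxs⟩
    simp [extC, indicator_of_mem hxs, pushC, h]
  · simp [extC, indicator_of_notMem hxs]

/-- coefficients supported in a compact piece of a chart give forms bounded in every `cN` -/
theorem exists_cN_extC_le (S : Setup M) (i : Fin S.at_.n) {Q : Set E4} (hQ : IsCompact Q)
    (hQt : Q ⊆ (S.at_.chart i).target) (N : ℕ) :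
    ∃ C, 0 ≤ C ∧ ∀ W : E4 → C2, ContDiff ℝ ∞ W → (∀ y, Anti (W y)) → (∀ y ∉ Q, W y = 0) →
      ∀ b : ℝ, 0 ≤ b → (∀ j ≤ N, ∀ y ∈ Q, ‖iteratedFDeriv ℝ j W y‖ ≤ b) →
        S.cN N (extC (S.at_.chart i) W) ≤ C * b := by
  set ci := S.at_.chart i with hci
  have hRc : IsClosed (ci.symm '' Q) :=
    (hQ.image_of_continuousOn (ci.symm.continuousOn.mono hQt)).isClosed
  let P : Fin S.at_.n → Set E4 := fun j => closedBall (0 : E4) 3 ∩
    (S.at_.chart j).symm ⁻¹' (ci.symm '' Q)
  have hPc : ∀ j, IsCompact (P j) := fun j =>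
    IsCompact.of_isClosed_subset (isCompact_closedBall _ _)
      (((S.at_.chart j).symm.continuousOn.mono (S.closedBall3_subset j)).preimage_isClosed_of_isClosed
        isClosed_closedBall hRc) inter_subset_left
  have hPo : ∀ j, P j ⊆ ov (S.at_.chart j) ci := by
    rintro j y ⟨hy, z, hz, hzy⟩
    refine ⟨S.closedBall3_subset j hy, ?_⟩
    show (S.at_.chart j).symm y ∈ ci.source
    rw [← hzy]
    exact ci.map_target (hQt hz)
  choose Ct hCt0 hCt using fun j =>
    LogTest.exists_trans_bound (S.at_.mem_maximal j) (S.at_.mem_maximal i) (hPc j) (hPo j) N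
  have hC0 : 0 ≤ ∑ j, Ct j := Finset.sum_nonneg fun j _ => hCt0 j
  refine ⟨S.at_.n * (N + 1) * ((∑ j, Ct j) * (N + 1)), by positivity,
    fun W hW hanti h0 b hb hWb => ?_⟩
  have halt : IsAltField (extC ci W) := isAltField_extC ci hanti
  refine (S.cN_le_of_bound (B := (∑ j, Ct j) * (N + 1) * b) (by positivity)
    fun j l hl y hy => ?_).trans_eq (by ring)
  by_cases hyP : y ∈ P j
  · set τ := tr (S.at_.chart j) ci
    have hty : τ y ∈ Q := by
      obtain ⟨-, z, hz, hzy⟩ := hyP
      show ci ((S.at_.chart j).symm y) ∈ _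
      rw [← hzy, ci.right_inv (hQt hz)]
      exact hz
    have hev : S.read j (extC ci W) =ᶠ[𝓝 y] fun z => pullC (jac τ z) (W (τ z)) := by
      filter_upwards [(isOpen_ov (S.at_.chart j) ci).mem_nhds (hPo j hyP)] with z hz
      show readC (S.at_.chart j) (extC ci W) z = _
      rw [halt.readC_tr (S.at_.mem_maximal j) (S.at_.mem_maximal i) hz,
        readC_extC (S.at_.mem_maximal i) W (tr_mem_ov hz).1]
    rw [(hev.iteratedFDeriv ℝ l).eq_of_nhds]
    refine (hCt j W hW y (hPo j |> fun _ => hyP) l hl).trans ?_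
    rw [mul_assoc]
    refine mul_le_mul (Finset.single_le_sum (fun k _ => hCt0 k) (Finset.mem_univ j)) ?_
      (Finset.sum_nonneg fun _ _ => norm_nonneg _) hC0
    calc ∑ q ∈ Finset.range (l + 1), ‖iteratedFDeriv ℝ q W (τ y)‖
        ≤ ∑ _q ∈ Finset.range (l + 1), b := Finset.sum_le_sum fun q hq =>
          hWb q ((Nat.lt_succ_iff.1 (Finset.mem_range.1 hq)).trans hl) _ hty
      _ ≤ ((N : ℝ) + 1) * b := by
          simp only [Finset.sum_const, Finset.card_range, nsmul_eq_mul]
          push_cast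
          gcongr
  · have hn : (S.at_.chart j).symm y ∉ ci.symm '' Q := fun h => hyP ⟨hy, h⟩
    have hev : S.read j (extC ci W) =ᶠ[𝓝 y] fun _ => (0 : C2) := by
      filter_upwards [((S.at_.chart j).symm.continuousAt (S.closedBall3_subset j hy)).preimage_mem_nhds
        (hRc.isOpen_compl.mem_nhds hn)] with z hz
      funext a c
      show extC ci W ((S.at_.chart j).symm z) _ _ = 0
      rw [extC_eq_zero_of_notMem h0 hz]
      rfl
    rw [(hev.iteratedFDeriv ℝ l).eq_of_nhds, iteratedFDeriv_fun_zero, Pi.zero_apply, norm_zero]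
    positivity

/-- a cut-off usable for `putAnti` -/
def IsCut (χ : E4 → ℝ) : Prop := ContDiff ℝ ∞ χ ∧ ∀ y ∉ closedBall (0 : E4) 3, χ y = 0

theorem isTwoForm_extCut (S : Setup M) (i : Fin S.at_.n) {χ : E4 → ℝ} (hχ : IsCut χ)
    {W : E4 → C2} (hW : ContDiff ℝ ∞ W) :
    IsTwoForm (extC (S.at_.chart i) fun y => χ y • asymL (W y)) :=
  isTwoForm_extC (S.at_.mem_maximal i) (isCompact_closedBall (0 : E4) 3) (S.closedBall3_subset i)
    (fun y a b => by simp [anti_asymL (W y) a b])
    (hχ.1.smul (asymL.contDiff.comp hW)).contDiffOn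
    fun y _ hy => by simp [hχ.2 y hy]

/-- extension from the chart `i` as a linear map -/
noncomputable def extL (S : Setup M) (i : Fin S.at_.n) {χ : E4 → ℝ} (hχ : IsCut χ) :
    smoothSub →ₗ[ℝ] Form M where
  toFun W := ⟨extC (S.at_.chart i) fun y => χ y • asymL (W.1 y), isTwoForm_extCut S i hχ W.2⟩
  map_add' U W := by
    refine Subtype.ext (funext fun x => funext fun p => funext fun q => ?_)
    show extC (S.at_.chart i) (fun y => χ y • asymL ((U + W).1 y)) x p q = extC _ _ x p q + extC _ _ x p q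
    by_cases hx : x ∈ (S.at_.chart i).source
    · simp [extC, indicator_of_mem hx, pushC, map_add, mul_add, Finset.sum_add_distrib]
    · simp [extC, indicator_of_notMem hx]
  map_smul' r W := by
    refine Subtype.ext (funext fun x => funext fun p => funext fun q => ?_)
    show extC (S.at_.chart i) (fun y => χ y • asymL ((r • W).1 y)) x p q = r * extC _ _ x p q
    by_cases hx : x ∈ (S.at_.chart i).source
    · simp [extC, indicator_of_mem hx, pushC, map_smul, Finset.mul_sum]
      exact Finset.sum_congr rfl fun a _ => Finset.sum_congr rfl fun b _ => by ring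
    · simp [extC, indicator_of_notMem hx]

/-- anti-invariant part of an extension from the chart `i` -/
noncomputable def putAnti (S : Setup M) (i : Fin S.at_.n) {χ : E4 → ℝ} (hχ : IsCut χ) :
    smoothSub →ₗ[ℝ] antiSub S :=
  LinearMap.codRestrict (antiSub S) ((pmL S.isJ).comp (extL S i hχ)) fun W =>
    pm_pm S.isJ (IsTwoForm.isAltField (extL S i hχ W).2)

theorem putAnti_coe (S : Setup M) (i : Fin S.at_.n) {χ : E4 → ℝ} (hχ : IsCut χ) (W : smoothSub) :
    (putAnti S i hχ W).1.1 = pm S.J (extC (S.at_.chart i) fun y => χ y • asymL (W.1 y)) := rfl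

theorem putAnti_of_eq (S : Setup M) (i : Fin S.at_.n) {χ : E4 → ℝ} (hχ : IsCut χ) (W : smoothSub)
    (hanti : ∀ y, Anti (W.1 y)) (h1 : ∀ y, χ y • W.1 y = W.1 y) :
    (putAnti S i hχ W).1.1 = pm S.J (extC (S.at_.chart i) W.1) := by
  rw [putAnti_coe]
  simp only [fun y => asymL_of_anti (hanti y), h1]

/-- the map from coefficient fields to anti-invariant forms is bounded in every scale -/
theorem exists_putAnti_le (S : Setup M) (i : Fin S.at_.n) {χ : E4 → ℝ} (hχ : IsCut χ) (N : ℕ) :
    ∃ C, 0 ≤ C ∧ ∀ W : smoothSub, ∀ b : ℝ, 0 ≤ b →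
      (∀ j ≤ N, ∀ y ∈ closedBall (0 : E4) 3, ‖iteratedFDeriv ℝ j W.1 y‖ ≤ b) →
        antiScale S N (putAnti S i hχ W) ≤ C * b := by
  have hQ := isCompact_closedBall (0 : E4) 3
  obtain ⟨C1, hC10, hC1⟩ := exists_cN_extC_le S i hQ (S.closedBall3_subset i) N
  obtain ⟨C2', hC20, hC2⟩ := S.exists_cN_pm N
  have hL : ContDiff ℝ ∞ (fun y => χ y • asymL) := hχ.1.smul contDiff_const
  obtain ⟨C3, hC30, hC3⟩ := exists_clm_bound isOpen_univ hQ (subset_univ _) hL.contDiffOn N
  refine ⟨C2' * (C1 * (C3 * (N + 1))), by positivity, fun W b hb hWb => ?_⟩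
  rw [antiScale_apply, putAnti_coe]
  refine (hC2 _ (isTwoForm_extCut S i hχ W.2)).trans ?_
  rw [mul_assoc C2', mul_assoc C1]
  refine mul_le_mul_of_nonneg_left (hC1 _ (hχ.1.smul (asymL.contDiff.comp (contDiff_coe W)))
    (fun y a b => by simp [anti_asymL (W.1 y) a b]) (fun y hy => by simp [hχ.2 y hy])
    _ (by positivity) fun j hj y hy => ?_) hC20
  refine (hC3 W.1 (contDiff_coe W).contDiffOn y hy j hj).trans ?_
  rw [mul_assoc]
  refine mul_le_mul_of_nonneg_left ?_ hC30
  calc ∑ q ∈ Finset.range (j + 1), ‖iteratedFDeriv ℝ q W.1 y‖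
      ≤ ∑ _q ∈ Finset.range (j + 1), b := Finset.sum_le_sum fun q hq =>
        hWb q ((Nat.lt_succ_iff.1 (Finset.mem_range.1 hq)).trans hj) y hy
    _ ≤ ((N : ℝ) + 1) * b := by
        simp only [Finset.sum_const, Finset.card_range, nsmul_eq_mul]
        push_cast
        gcongr

end Vale.Agent.P204.Full.Range
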