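import Vale.Agent.P204.Full.Range.Local
import Vale.Agent.P204.Full.Range.Transfer
import Vale.Agent.P204.Full.Global.Exact

/-!
P204, lift of anti-invariant parts: the parametrix on the manifold and its error (helper72).
-/

namespace Vale.Agent.P204.Full.Range

set_option maxSynthPendingDepth 3
set_option linter.unusedSectionVars false

open Set Metric Filter
open scoped Manifold ContDiff Topology BigOperators

universe u

/-- scale of the parametrix -/
noncomputable def scale : ℝ := 1 / 8

theorem scale_pos : 0 < scale := by norm_num [scale]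

theorem isCut_bumpK : IsCut (fun y => bumpK y) :=
  ⟨bumpK.contDiff, fun y hy => bumpK.zero_of_le_dist (by
    simpa [bumpK] using (not_le.1 (by simpa using hy)).le)⟩

variable {F : Heart.Frame} {η θ : E4 → C2} {r : ℝ}

theorem contDiff_d1Pop (hF : NearFrame F) (hη : ContDiff ℝ ∞ η) (r : ℝ) :
    ContDiff ℝ ∞ (d1 (Pop F r η)) :=
  contDiff_pi.2 fun a => contDiff_pi.2 fun b =>
    (Op.contDiff_pd (contDiff_pi.1 (contDiff_Pop hF hη r) b) a).sub
      (Op.contDiff_pd (contDiff_pi.1 (contDiff_Pop hF hη r) a) b)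

theorem d1_add {α β : E4 → C1} (hα : ContDiff ℝ ∞ α) (hβ : ContDiff ℝ ∞ β) (y : E4) :
    d1 (α + β) y = d1 α y + d1 β y := by
  have h : ∀ a b, pd (fun z => (α + β) z b) a y =
      pd (fun z => α z b) a y + pd (fun z => β z b) a y := fun a b => by
    simp only [pd, Pi.add_apply]
    rw [fderiv_fun_add ((contDiff_pi.1 hα b).differentiable (by simp) y)
      ((contDiff_pi.1 hβ b).differentiable (by simp) y)]
    rfl
  funext a b
  show pd (fun z => (α + β) z b) a y - pd (fun z => (α + β) z a) b y =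
    (pd (fun z => α z b) a y - pd (fun z => α z a) b y) +
      (pd (fun z => β z b) a y - pd (fun z => β z a) b y)
  rw [h, h]
  ring

theorem d1_smul {α : E4 → C1} (hα : ContDiff ℝ ∞ α) (c : ℝ) (y : E4) :
    d1 (c • α) y = c • d1 α y := by
  have h : ∀ a b, pd (fun z => (c • α) z b) a y = c * pd (fun z => α z b) a y := fun a b => by
    simp only [pd, Pi.smul_apply, smul_eq_mul]
    rw [fderiv_const_mul ((contDiff_pi.1 hα b).differentiable (by simp) y)]
    rfl
  funext a b
  simp only [d1, Pi.smul_apply, smul_eq_mul, mul_sub, ← h]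

theorem abs_pd_Pop_le (hF : NearFrame F) (a b : Fin 4) :
    ∃ C, 0 ≤ C ∧ ∀ η : E4 → C2, ContDiff ℝ ∞ η → ∀ r, 0 ≤ r → ∀ B,
      (∀ j ≤ 1, ∀ y, ‖iteratedFDeriv ℝ j η y‖ ≤ B) → ∀ x ∈ closedBall (0 : E4) 3,
        |pd (fun y => Pop F r η y b) a x| ≤ r * C * B := by
  choose C hC0 hC using fun i j => exists_norm_iteratedFDeriv_opI_le 1
    (isAmp_ampP hF b i j) (S := closedBall (0 : E4) 4) (isCompact_closedBall _ _)
  refine ⟨∑ i, ∑ j, C i j, Finset.sum_nonneg fun i _ => Finset.sum_nonneg fun j _ => hC0 i j,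
    fun η hη r hr B hB x hx => ?_⟩
  have hin : x ∈ interior (closedBall (0 : E4) 4) := interior_mono ball_subset_closedBall
    (by rw [isOpen_ball.interior_eq]; exact closedBall_subset_ball (by norm_num) hx)
  have hd : ∀ i j, DifferentiableAt ℝ (opI r (ampP F b i j) fun y => η y i j) x := fun i j =>
    (contDiff_opI (isAmp_ampP hF b i j) (contDiff_entry hη i j) r).differentiable (by simp) x
  have he : pd (fun y => Pop F r η y b) a x =
      ∑ i, ∑ j, pd (opI r (ampP F b i j) fun y => η y i j) a x := by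
    rw [pd, show (fun y => Pop F r η y b) = fun y => ∑ i, ∑ j,
      opI r (ampP F b i j) (fun y => η y i j) y from rfl,
      (HasFDerivAt.fun_sum fun i _ => HasFDerivAt.fun_sum fun j _ => (hd i j).hasFDerivAt).fderiv]
    simp [pd]
  rw [he, Finset.mul_sum, Finset.sum_mul]
  refine (Finset.abs_sum_le_sum_abs _ _).trans (Finset.sum_le_sum fun i _ => ?_)
  rw [Finset.mul_sum, Finset.sum_mul]
  refine (Finset.abs_sum_le_sum_abs _ _).trans (Finset.sum_le_sum fun j _ => ?_)
  refine le_trans ?_ (hC i j (contDiff_entry hη i j) r hr B (fun k hk y =>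
    (((evC i j).norm_iteratedFDeriv_comp_left (n := k) (x := y)
      (hη.contDiffAt.of_le (mod_cast le_top)) le_rfl).trans
      (mul_le_of_le_one_left (norm_nonneg _) (norm_evC_le i j))).trans (hB k hk y)) x hin)
  rw [norm_iteratedFDeriv_one, pd, ← Real.norm_eq_abs]
  exact ((fderiv ℝ _ x).le_opNorm _).trans (by simp [norm_ev4])

theorem exists_norm_d1Pop_le (hF : NearFrame F) :
    ∃ C, 0 ≤ C ∧ ∀ η : E4 → C2, ContDiff ℝ ∞ η → ∀ r, 0 ≤ r → ∀ B,
      (∀ j ≤ 1, ∀ y, ‖iteratedFDeriv ℝ j η y‖ ≤ B) → ∀ x ∈ closedBall (0 : E4) 3,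
        ‖d1 (Pop F r η) x‖ ≤ r * C * B := by
  choose C hC0 hC using fun a b => abs_pd_Pop_le hF a b
  refine ⟨2 * ∑ a, ∑ b, C a b, mul_nonneg zero_le_two
    (Finset.sum_nonneg fun a _ => Finset.sum_nonneg fun b _ => hC0 a b),
    fun η hη r hr B hB x hx => ?_⟩
  have hB0 : 0 ≤ B := (norm_nonneg _).trans (hB 0 zero_le_one 0)
  have hle : ∀ a b, |pd (fun y => Pop F r η y b) a x| ≤ r * (∑ a, ∑ b, C a b) * B := fun a b =>
    (hC a b η hη r hr B hB x hx).trans (mul_le_mul_of_nonneg_right (mul_le_mul_of_nonneg_left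
      ((Finset.single_le_sum (fun b _ => hC0 a b) (Finset.mem_univ b)).trans
        (Finset.single_le_sum (f := fun a => ∑ b, C a b)
          (fun a _ => Finset.sum_nonneg fun b _ => hC0 a b) (Finset.mem_univ a))) hr) hB0)
  have hpos : 0 ≤ r * (2 * ∑ a, ∑ b, C a b) * B := mul_nonneg (mul_nonneg hr (mul_nonneg
    zero_le_two (Finset.sum_nonneg fun a _ => Finset.sum_nonneg fun b _ => hC0 a b))) hB0
  refine (pi_norm_le_iff_of_nonneg hpos).2 fun a => (pi_norm_le_iff_of_nonneg hpos).2 fun b => ?_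
  rw [Real.norm_eq_abs, d1]
  exact (abs_sub _ _).trans ((add_le_add (hle a b) (hle b a)).trans_eq (by ring))

variable {M : Type u} [TopologicalSpace M] [T2Space M] [ChartedSpace E4 M]
  [IsManifold (𝓡 4) ∞ M] (S : Setup M)

theorem cutRead_zero_out (i : Fin S.at_.n) (w : Form M) (y : E4) (hy : 1 < ‖y‖) :
    (cutRead S i w).1 y = 0 :=
  cutRead_eq_zero S i w fun h => by
    rw [mem_ball, dist_zero_right] at h
    linarith

variable (Fr : Fin S.at_.n → Heart.Frame) (hFr : ∀ i, NearFrame (Fr i))

/-- the potential of the parametrix in the chart `i` -/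
noncomputable def pot (i : Fin S.at_.n) (w : Form M) : E4 → C1 :=
  Pop (Fr i) scale (cutRead S i w).1

theorem pot_eq_zero (hFr : ∀ i, NearFrame (Fr i)) (i : Fin S.at_.n) (w : Form M) {y : E4}
    (hy : y ∉ closedBall (0 : E4) 2) : pot S Fr i w y = 0 :=
  Pop_eq_zero (hFr i) (cutRead_zero_out S i w) scale_pos.le
    (lt_of_le_of_lt (show 1 + 2 * scale ≤ 2 by norm_num [scale]) (not_le.1 (by simpa using hy)))

theorem contDiff_pot (hFr : ∀ i, NearFrame (Fr i)) (i : Fin S.at_.n) (w : Form M) :
    ContDiff ℝ ∞ (pot S Fr i w) :=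
  contDiff_Pop (hFr i) (contDiff_coe _) scale

theorem isExactForm_pot (hFr : ∀ i, NearFrame (Fr i)) (i : Fin S.at_.n) (w : Form M) :
    IsExactForm (extC (S.at_.chart i) (d1 (pot S Fr i w))) :=
  (isExactForm_extC (S.at_.mem_maximal i) (isCompact_closedBall (0 : E4) 2)
    ((closedBall_subset_closedBall (by norm_num)).trans (S.closedBall3_subset i))
    (contDiff_pot S Fr hFr i w).contDiffOn fun _ _ hy => pot_eq_zero S Fr hFr i w hy).1

theorem d1_pot_eq_zero (hFr : ∀ i, NearFrame (Fr i)) (i : Fin S.at_.n) (w : Form M) {y : E4}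
    (hy : y ∉ closedBall (0 : E4) 2) : d1 (pot S Fr i w) y = 0 := by
  have h : ∀ q, (fun z => pot S Fr i w z q) =ᶠ[𝓝 y] fun _ => (0 : ℝ) := fun q =>
    eventually_of_mem (isClosed_closedBall.isOpen_compl.mem_nhds hy) fun z hz => by
      show pot S Fr i w z q = 0
      rw [pot_eq_zero S Fr hFr i w hz]
      rfl
  funext a b
  simp [d1, pd, (h _).fderiv_eq]

omit [T2Space M] [IsManifold (𝓡 4) ∞ M] in
theorem extC_add (c : OpenPartialHomeomorph M E4) (V W : E4 → C2) :
    extC c (V + W) = extC c V + extC c W := by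
  funext x p q
  by_cases hx : x ∈ c.source
  · simp [extC, indicator_of_mem hx, pushC, mul_add, Finset.sum_add_distrib]
  · simp [extC, indicator_of_notMem hx]

omit [T2Space M] [IsManifold (𝓡 4) ∞ M] in
theorem extC_smul (c : OpenPartialHomeomorph M E4) (r : ℝ) (W : E4 → C2) :
    extC c (r • W) = r • extC c W := by
  funext x p q
  by_cases hx : x ∈ c.source
  · simp only [extC, indicator_of_mem hx, pushC, Pi.smul_apply, smul_eq_mul, Finset.mul_sum]
    exact Finset.sum_congr rfl fun a _ => Finset.sum_congr rfl fun b _ => by ring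
  · simp [extC, indicator_of_notMem hx]

/-- exact part of the parametrix in the chart `i` -/
noncomputable def dTerm (hFr : ∀ i, NearFrame (Fr i)) (i : Fin S.at_.n) :
    Form M →ₗ[ℝ] closedSub M where
  toFun w := ⟨⟨extC (S.at_.chart i) (d1 (pot S Fr i w)), (isExactForm_pot S Fr hFr i w).isTwoForm⟩,
    (isExactForm_pot S Fr hFr i w).isClosedForm⟩
  map_add' v w := by
    refine Subtype.ext (Subtype.ext ?_)
    show extC _ (d1 (pot S Fr i (v + w))) = extC _ (d1 (pot S Fr i v)) + extC _ (d1 (pot S Fr i w))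
    rw [← extC_add]
    congr 1
    have he : pot S Fr i (v + w) = pot S Fr i v + pot S Fr i w := funext fun y => by
      simp only [pot, map_add, Submodule.coe_add, Pi.add_apply]
      exact Pop_add (hFr i) (contDiff_coe _).continuous (contDiff_coe _).continuous scale y
    rw [he]
    exact funext fun y => d1_add (contDiff_pot S Fr hFr i v) (contDiff_pot S Fr hFr i w) y
  map_smul' c w := by
    refine Subtype.ext (Subtype.ext ?_)
    show extC _ (d1 (pot S Fr i (c • w))) = c • extC _ (d1 (pot S Fr i w))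
    rw [← extC_smul]
    congr 1
    have he : pot S Fr i (c • w) = c • pot S Fr i w := funext fun y => by
      simp only [pot, map_smul, SetLike.val_smul, Pi.smul_apply]
      exact Pop_smul scale c _ y
    rw [he]
    exact funext fun y => d1_smul (contDiff_pot S Fr hFr i w) c y

/-- the parametrix -/
noncomputable def parD (hFr : ∀ i, NearFrame (Fr i)) : antiSub S →ₗ[ℝ] closedSub M :=
  (∑ i, dTerm S Fr hFr i).comp (antiSub S).subtype

/-- anti-invariant part of closed forms -/
noncomputable def pmZ : closedSub M →ₗ[ℝ] antiSub S :=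
  LinearMap.codRestrict (antiSub S) ((pmL S.isJ).comp (closedSub M).subtype) fun w =>
    pm_pm S.isJ (IsTwoForm.isAltField w.1.2)

theorem parD_coe (u : antiSub S) :
    (parD S Fr hFr u).1.1 = ∑ i, extC (S.at_.chart i) (d1 (pot S Fr i u.1)) := by
  simp [parD, dTerm, LinearMap.sum_apply, Submodule.coe_sum]

theorem exists_parD_le : ∃ C, 0 ≤ C ∧ ∀ u : antiSub S,
    S.cN 0 (parD S Fr hFr u).1.1 ≤ C * antiScale S 1 u := by
  choose A hA0 hA using fun i => exists_deriv_cutRead_le S i 1
  choose B hB0 hB using fun i => exists_norm_d1Pop_le (hFr i)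
  choose E hE0 hE using fun i => exists_cN_extC_le S i (isCompact_closedBall (0 : E4) 3)
    (S.closedBall3_subset i) 0
  refine ⟨∑ i, E i * (scale * B i * A i), Finset.sum_nonneg fun i _ => mul_nonneg (hE0 i)
    (mul_nonneg (mul_nonneg scale_pos.le (hB0 i)) (hA0 i)), fun u => ?_⟩
  rw [parD_coe, Finset.sum_mul]
  have hsum : ∀ s : Finset (Fin S.at_.n),
      S.cN 0 (∑ i ∈ s, extC (S.at_.chart i) (d1 (pot S Fr i u.1))) ≤
        ∑ i ∈ s, S.cN 0 (extC (S.at_.chart i) (d1 (pot S Fr i u.1))) := by
    intro s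
    induction s using Finset.induction_on with
    | empty => simp [S.cN_zero]
    | insert i s hi ih =>
      rw [Finset.sum_insert hi, Finset.sum_insert hi]
      exact (S.cN_add_le 0 (isExactForm_pot S Fr hFr i u.1).isTwoForm
        ((Form M).sum_mem fun j _ => (isExactForm_pot S Fr hFr j u.1).isTwoForm)).trans
          (add_le_add le_rfl ih)
  refine (hsum Finset.univ).trans (Finset.sum_le_sum fun i _ => ?_)
  rw [antiScale_apply, mul_assoc]
  refine hE i _ (contDiff_d1Pop (hFr i) (contDiff_coe _) scale) (fun y => anti_d1 _ y)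
    (fun y hy => d1_pot_eq_zero S Fr hFr i u.1
      fun h => hy (closedBall_subset_closedBall (by norm_num) h)) _
    (mul_nonneg (mul_nonneg (mul_nonneg scale_pos.le (hB0 i)) (hA0 i)) (S.cN_nonneg 1 _))
    fun j hj y hy => ?_
  rw [Nat.le_zero.1 hj, norm_iteratedFDeriv_zero, mul_assoc (scale * B i)]
  exact hB i _ (contDiff_coe _) scale scale_pos.le _
    (fun k hk z => hA i u.1 k hk z) y hy

/-- small part of the error in the chart `i` -/
noncomputable def smallF (hFr : ∀ i, NearFrame (Fr i)) (ε : ℝ) (i : Fin S.at_.n) (w : Form M) :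
    smoothSub :=
  ⟨wSmall (Fr i) ε (cutRead S i w).1, contDiff_wSmall (hFr i) (contDiff_coe _) ε⟩

/-- smoothing part of the error in the chart `i` -/
noncomputable def smoothF (hFr : ∀ i, NearFrame (Fr i)) {ε : ℝ} (hε : 0 < ε) (i : Fin S.at_.n)
    (w : Form M) : smoothSub :=
  ⟨Neumann.kop MeasureTheory.volume (kSmooth (Fr i) ε scale) (cutRead S i w).1,
    Neumann.contDiff_kop (contDiff_kSmooth (hFr i) hε scale) (hasCompactSupport_kSmooth _ _ _)
      (contDiff_coe _).continuous⟩

variable (hJ : ∀ i, ∀ y ∈ closedBall (0 : E4) 3, acs (Fr i) y = readJ (S.at_.chart i) S.J y)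

theorem extC_cutRead (i : Fin S.at_.n) (w : Form M) :
    extC (S.at_.chart i) (cutRead S i w).1 = smulFn (S.at_.rho i) w.1 := by
  funext x p q
  by_cases hx : x ∈ (S.at_.chart i).source
  · rw [(isAltField_extC _ (anti_cutRead S i w)).apply_eq_readC (S.at_.mem_maximal i) hx,
      ((IsTwoForm.smulFn w.2 (S.at_.rho_smooth i)).isAltField).apply_eq_readC
        (S.at_.mem_maximal i) hx, readC_extC (S.at_.mem_maximal i) _ ((S.at_.chart i).map_source hx),
      readC_smulFn, cutRead_of_mem S i w ((S.at_.chart i).map_source hx)]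
    rfl
  · have h : S.at_.rho i x = 0 := by
      by_contra h
      exact hx (S.mem_of_rho_ne h).1
    simp [extC, indicator_of_notMem hx, smulFn, h]

omit [T2Space M] [IsManifold (𝓡 4) ∞ M] in
theorem pmC_zero (A : Matrix (Fin 4) (Fin 4) ℝ) : pmC A 0 = 0 := by
  funext a b
  simp [pmC, pullC]

include hFr hJ in
theorem extC_Eop_eq {ρ : ℝ} (i : Fin S.at_.n) (u : antiSub S) (hρ0 : 0 ≤ ρ) (hρ : ρ = scale) :
    extC (S.at_.chart i) (Eop (Fr i) ρ (cutRead S i u.1).1) =
      pm S.J (extC (S.at_.chart i) (d1 (pot S Fr i u.1) - (cutRead S i u.1).1)) := by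
  subst hρ
  set g := (cutRead S i u.1).1
  have hW : ∀ y, Anti ((d1 (pot S Fr i u.1) - g) y) := fun y a b => by
    simp only [Pi.sub_apply]
    rw [anti_d1 _ y a b, show g y b a = -g y a b from anti_cutRead S i u.1 y a b]
    ring
  have hE : ∀ y, Anti (Eop (Fr i) scale g y) := anti_Eop (anti_cutRead S i u.1) scale
  have hsub : ∀ y, Eop (Fr i) scale g y =
      pmC (acs (Fr i) y) ((d1 (pot S Fr i u.1) - g) y) := fun y => by
    funext a b
    simp only [Eop, pot, Pi.sub_apply, pmC, pullC, mul_sub, Finset.sum_sub_distrib, g]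
    ring
  funext x p q
  by_cases hx : x ∈ (S.at_.chart i).source
  · have hy := (S.at_.chart i).map_source hx
    have halt : IsAltField (extC (S.at_.chart i) (d1 (pot S Fr i u.1) - g)) :=
      isAltField_extC _ hW
    have halt' : IsAltField (pm S.J (extC (S.at_.chart i) (d1 (pot S Fr i u.1) - g))) := by
      refine IsTwoForm.isAltField (isTwoForm_pm S.isJ (isTwoForm_extC (S.at_.mem_maximal i)
        (isCompact_closedBall (0 : E4) 2)
        ((closedBall_subset_closedBall (by norm_num)).trans (S.closedBall3_subset i)) hW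
        ((contDiff_d1Pop (hFr i) (contDiff_coe _) scale).sub (contDiff_coe _)).contDiffOn
        fun z _ hz => ?_))
      show d1 (pot S Fr i u.1) z - (cutRead S i u.1).1 z = 0
      rw [d1_pot_eq_zero S Fr hFr i u.1 hz, cutRead_eq_zero S i u.1 fun h => hz
        (closedBall_subset_closedBall one_le_two (ball_subset_closedBall h)), sub_zero]
    rw [(isAltField_extC _ hE).apply_eq_readC (S.at_.mem_maximal i) hx,
      halt'.apply_eq_readC (S.at_.mem_maximal i) hx,
      readC_extC (S.at_.mem_maximal i) _ hy, readC_pm S.isJ halt (S.at_.mem_maximal i) hy,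
      readC_extC (S.at_.mem_maximal i) _ hy, hsub]
    by_cases h3 : S.at_.chart i x ∈ closedBall (0 : E4) 3
    · rw [hJ i _ h3]
    · have h0 : (d1 (pot S Fr i u.1) - g) (S.at_.chart i x) = 0 := by
        show d1 (pot S Fr i u.1) _ - (cutRead S i u.1).1 _ = 0
        rw [d1_pot_eq_zero S Fr hFr i u.1 fun h => h3
            (closedBall_subset_closedBall (by norm_num) h),
          cutRead_eq_zero S i u.1 fun h => h3
            (closedBall_subset_closedBall (by norm_num) (ball_subset_closedBall h)), sub_zero]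
      rw [h0, pmC_zero, pmC_zero]
  · have : extC (S.at_.chart i) (d1 (pot S Fr i u.1) - g) x = 0 := indicator_of_notMem hx _
    simp [extC, indicator_of_notMem hx, pm, this]

/-- the error of the parametrix -/
noncomputable def parT (hFr : ∀ i, NearFrame (Fr i)) : antiSub S →ₗ[ℝ] antiSub S :=
  (pmZ S).comp (parD S Fr hFr) - (LinearMap.id : antiSub S →ₗ[ℝ] antiSub S)

include hJ in
/-- for every small scale the error is the small part plus the smoothing part -/
theorem parT_split {ε : ℝ} (hε : 0 < ε) (hεs : ε ≤ scale) (u : antiSub S) :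
    parT S Fr hFr u = (∑ i, putAnti S i isCut_bumpK (smallF S Fr hFr ε i u.1)) +
      ∑ i, putAnti S i isCut_bumpK (smoothF S Fr hFr hε i u.1) := by
  have key : ∀ i, (putAnti S i isCut_bumpK (smallF S Fr hFr ε i u.1) +
      putAnti S i isCut_bumpK (smoothF S Fr hFr hε i u.1)).1.1 =
        pm S.J (extC (S.at_.chart i) (d1 (pot S Fr i u.1)) - smulFn (S.at_.rho i) u.1.1) := by
    intro i
    rw [← map_add]
    have hA := anti_cutRead S i u.1
    have h0 := cutRead_zero_out S i u.1
    have hs := fun y => Eop_split (hFr i) (contDiff_coe _) hA h0 hε hεs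
      (show scale ≤ 1 / 4 by norm_num [scale]) y
    have hval : (smallF S Fr hFr ε i u.1 + smoothF S Fr hFr hε i u.1).1 =
        Eop (Fr i) scale (cutRead S i u.1).1 := funext fun y => (hs y).symm
    have h1 : ∀ y, (fun z => bumpK z) y • (smallF S Fr hFr ε i u.1 +
        smoothF S Fr hFr hε i u.1).1 y =
          (smallF S Fr hFr ε i u.1 + smoothF S Fr hFr hε i u.1).1 y := fun y => by
      rw [hval]
      by_cases hy : y ∈ closedBall (0 : E4) 2
      · simp only []
        rw [bumpK.one_of_mem_closedBall (by simpa [bumpK] using hy), one_smul]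
      · rw [Eop_eq_zero (hFr i) (contDiff_coe _) hA h0 scale_pos.le
          (lt_of_le_of_lt (show 1 + 2 * scale ≤ 2 by norm_num [scale]) (not_le.1 (by simpa using hy))), smul_zero]
    rw [putAnti_of_eq S i isCut_bumpK _ (fun y => by
      rw [hval]; exact anti_Eop hA scale y) h1, hval,
      extC_Eop_eq S Fr hFr hJ i u scale_pos.le rfl]
    have hadd := extC_add (S.at_.chart i) (d1 (pot S Fr i u.1) - (cutRead S i u.1).1)
      (cutRead S i u.1).1
    rw [sub_add_cancel, extC_cutRead] at hadd
    rw [hadd, add_sub_cancel_right]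
    exact pm_pm S.isJ (isAltField_extC _ fun y a b => by
      simp only [Pi.sub_apply]
      rw [anti_d1 _ y a b, anti_cutRead S i u.1 y a b]
      ring)
  rw [← Finset.sum_add_distrib]
  refine Subtype.ext (Subtype.ext ?_)
  rw [Submodule.coe_sum, Submodule.coe_sum, Finset.sum_congr rfl fun i _ => key i]
  show pm S.J (parD S Fr hFr u).1.1 - u.1.1 = _
  rw [parD_coe]
  funext x p q
  have hu := congrFun (congrFun (congrFun u.2 x) p) q
  simp only [pm, smulFn, Pi.sub_apply, Finset.sum_apply] at hu ⊢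
  rw [← Finset.sum_div, Finset.sum_sub_distrib, Finset.sum_sub_distrib, Finset.sum_sub_distrib,
    ← Finset.sum_mul, ← Finset.sum_mul, S.at_.rho_sum]
  linarith

/-- the small part is bounded by `ε` in every seminorm -/
theorem exists_smallF_le (k : ℕ) : ∃ C, 0 ≤ C ∧ ∀ ε, 0 ≤ ε → ε ≤ scale → ∀ u : antiSub S,
    antiScale S k (∑ i, putAnti S i isCut_bumpK (smallF S Fr hFr ε i u.1)) ≤
      ε * C * antiScale S k u := by
  choose A hA0 hA using fun i => exists_deriv_cutRead_le S i k
  choose W hW0 hW using fun i (j : ℕ) => exists_norm_iteratedFDeriv_wSmall_le (hFr i) j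
  choose P hP0 hP using fun i => exists_putAnti_le S i isCut_bumpK k
  have hWs : ∀ i, 0 ≤ ∑ j ∈ Finset.range (k + 1), W i j := fun i =>
    Finset.sum_nonneg fun j _ => hW0 i j
  refine ⟨∑ i, P i * ((∑ j ∈ Finset.range (k + 1), W i j) * A i), Finset.sum_nonneg fun i _ =>
    mul_nonneg (hP0 i) (mul_nonneg (hWs i) (hA0 i)), fun ε hε hεs u => ?_⟩
  refine (Finset.le_sum_of_subadditive (antiScale S k) (map_zero _).le (map_add_le_add _)
    Finset.univ _).trans ?_
  rw [Finset.mul_sum, Finset.sum_mul]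
  refine Finset.sum_le_sum fun i _ => ?_
  have hc : 0 ≤ S.cN k u.1.1 := S.cN_nonneg k _
  refine (hP i _ (ε * (∑ j ∈ Finset.range (k + 1), W i j) * (A i * S.cN k u.1.1))
    (mul_nonneg (mul_nonneg hε (hWs i)) (mul_nonneg (hA0 i) hc)) fun j hj y _ => ?_).trans_eq
    (by rw [antiScale_apply]; ring)
  refine (hW i j _ (contDiff_coe _) (cutRead_zero_out S i u.1) ε hε
    (hεs.trans (by norm_num [scale])) (A i * S.cN k u.1.1)
    (fun l hl z => hA i u.1 l (hl.trans hj) z) y).trans ?_
  exact mul_le_mul_of_nonneg_right (mul_le_mul_of_nonneg_left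
    (Finset.single_le_sum (f := fun j => W i j) (fun j _ => hW0 i j)
      (Finset.mem_range.2 (Nat.lt_succ_of_le hj))) hε) (mul_nonneg (hA0 i) hc)

end Vale.Agent.P204.Full.Range
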