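import Vale.Agent.P204.Full.Range.Amp
import Vale.Agent.P204.Heart.Kernel
import Vale.Agent.P204.Full.Frozen.Basic

/-!
P204, lift of anti-invariant parts: the radial kernel of the parametrix (helper72).
-/

namespace Vale.Agent.P204.Full.Range

open MeasureTheory Filter Topology Set Vale.Agent.P204.Heart
open scoped ContDiff

/-- the frame differs little from the identity -/
def NearFrame (F : Frame) : Prop :=
  ∀ x a b, |F.P x a b - (1 : Matrix (Fin 4) (Fin 4) ℝ) a b| ≤ 1 / 100

theorem contDiff_prof : ContDiff ℝ ∞ prof :=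
  Real.smoothTransition.contDiff.comp (contDiff_const.sub contDiff_id)

theorem prof_nonneg (r : ℝ) : 0 ≤ prof r := Real.smoothTransition.nonneg _

theorem prof_eq_zero {r : ℝ} (h : 2 ≤ r) : prof r = 0 :=
  Real.smoothTransition.zero_of_nonpos (by linarith)

theorem continuous_prof_sq : Continuous fun u : E4 => prof (‖u‖ ^ 2) :=
  contDiff_prof.continuous.comp (continuous_norm.pow 2)

theorem hasCompactSupport_prof_sq : HasCompactSupport fun u : E4 => prof (‖u‖ ^ 2) :=
  HasCompactSupport.intro (isCompact_closedBall 0 2) fun u hu => prof_eq_zero (by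
    have : 2 < ‖u‖ := by simpa using hu
    nlinarith)

theorem profMass_pos : 0 < profMass := by
  refine integral_pos_of_integrable_nonneg_nonzero (x := (0 : E4)) continuous_prof_sq
    (continuous_prof_sq.integrable_of_hasCompactSupport hasCompactSupport_prof_sq)
    (fun u => prof_nonneg _) ?_
  simp [prof, Real.smoothTransition.one_of_one_le]

variable (F : Frame)

theorem ker_den_ne (x : E4) : (F.P x).det * profMass ≠ 0 :=
  mul_ne_zero (F.det_pos x).ne' profMass_pos.ne'

theorem contDiff_ker : ContDiff ℝ ∞ fun p : E4 × E4 => ker F p.1 p.2 := by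
  have h1 : ContDiff ℝ ∞ fun p : E4 × E4 => (F.P p.1).det :=
    (Kernel.contDiff_det F.smooth).comp (contDiff_fst (E := E4) (F := E4))
  exact (contDiff_prof.comp (Kernel.contDiff_qf F)).div (h1.mul contDiff_const)
    fun p => ker_den_ne F p.1

variable {F}

theorem ker_eq_zero (hF : NearFrame F) {x t : E4} (ht : 2 < ‖t‖) : ker F x t = 0 := by
  have hb := (Frozen.near_mulVec_norm (hF x) ((F.P x)⁻¹.mulVec t.ofLp)).2
  rw [Matrix.mulVec_mulVec, Kernel.mul_inv, Matrix.one_mulVec, WithLp.toLp_ofLp] at hb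
  have hq : 2 ≤ qf F x t := by
    have h : qf F x t = ‖(WithLp.toLp 2 ((F.P x)⁻¹.mulVec t.ofLp) : E4)‖ ^ 2 := by
      rw [Frozen.norm_toLp_sq]; rfl
    rw [h]
    nlinarith [norm_nonneg (WithLp.toLp 2 ((F.P x)⁻¹.mulVec t.ofLp) : E4)]
  simp [ker, prof_eq_zero hq]

theorem isAmp_ker (hF : NearFrame F) : IsAmp 2 (ker F) :=
  ⟨contDiff_ker F, fun _ _ ht => ker_eq_zero hF ht⟩

theorem isAmp_kerCoord (hF : NearFrame F) (c : Fin 4) : IsAmp 2 fun x t => ker F x t * t c :=
  ⟨(contDiff_ker F).mul ((Kernel.contDiff_coord c).comp contDiff_snd),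
    fun x t ht => by simp [ker_eq_zero hF ht]⟩

/-- unit mass -/
theorem integral_ker (x : E4) : ∫ t, ker F x t = 1 := by
  set T : E4 →ₗ[ℝ] E4 := Matrix.toEuclideanLin (F.P x)⁻¹ with hT
  have hdet : LinearMap.det T = ((F.P x).det)⁻¹ := by
    simp [hT, Matrix.det_nonsing_inv, Ring.inverse_eq_inv']
  have hne := Kernel.det_ne F x
  have hm := Measure.map_linearMap_addHaar_eq_smul_addHaar
    (μ := (volume : Measure E4)) (f := T) (by rw [hdet]; exact inv_ne_zero hne)
  have key := integral_map (φ := T) T.continuous_of_finiteDimensional.aemeasurable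
    (continuous_prof_sq.aestronglyMeasurable (μ := Measure.map T volume))
  rw [hm, integral_smul_measure, hdet, ENNReal.toReal_ofReal (abs_nonneg _), inv_inv,
    abs_of_pos (F.det_pos x), smul_eq_mul, ← profMass] at key
  have hf : (fun t => ker F x t) = fun t => ((F.P x).det * profMass)⁻¹ * prof (‖T t‖ ^ 2) := by
    funext t
    rw [ker, show qf F x t = ‖T t‖ ^ 2 by rw [EuclideanSpace.real_norm_sq_eq]; rfl, div_eq_inv_mul]
  rw [hf, integral_const_mul, ← key, inv_mul_cancel₀ (ker_den_ne F x)]

/-- derivative of the kernel along a frame vector, times a frame coordinate: symmetric part -/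
theorem hasFDerivAt_kerFrame (x t : E4) (e : Fin 4) :
    HasFDerivAt (fun t => ker F x t * ∑ c, inv F x e c * t c)
      ((ker F x t) • (∑ c, inv F x e c • EuclideanSpace.proj (𝕜 := ℝ) c) +
        (∑ c, inv F x e c * t c) • ((((F.P x).det * profMass)⁻¹ * deriv prof (qf F x t)) •
          ∑ a, (2 * qv F x t a) • EuclideanSpace.proj (𝕜 := ℝ) a)) t := by
  have h1 : HasFDerivAt (fun t => ker F x t)
      ((((F.P x).det * profMass)⁻¹ * deriv prof (qf F x t)) •
        ∑ a, (2 * qv F x t a) • EuclideanSpace.proj (𝕜 := ℝ) a) t := by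
    have h := (((contDiff_prof.differentiable (by simp)) (qf F x t)).hasDerivAt.comp_hasFDerivAt t
      (Kernel.hasFDerivAt_qf x t)).const_mul ((F.P x).det * profMass)⁻¹
    rw [smul_smul] at h
    refine h.congr_of_eventuallyEq (Eventually.of_forall fun u => ?_)
    simp [ker, div_eq_inv_mul]
  have h2 : HasFDerivAt (fun t : E4 => ∑ c, inv F x e c * t c)
      (∑ c, inv F x e c • EuclideanSpace.proj (𝕜 := ℝ) c) t :=
    HasFDerivAt.fun_sum fun c _ => (Kernel.hasFDerivAt_coord t c).const_mul _
  exact h1.mul h2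

theorem sum_qv_mul_P (x t : E4) (f : Fin 4) :
    ∑ a, qv F x t a * F.P x a f = ∑ c, inv F x f c * t c := by
  have h : ∀ b, ∑ a, pinv F x a b * F.P x a f = inv F x f b := by
    intro b
    have h1 : (F.P x).transpose * pinv F x = (F.P x)⁻¹ := by
      rw [pinv, ← Matrix.mul_assoc, ← Matrix.transpose_mul, Kernel.inv_mul, Matrix.transpose_one,
        Matrix.one_mul]
    have h2 := congrFun (congrFun h1 f) b
    simp only [Matrix.mul_apply, Matrix.transpose_apply] at h2
    rw [inv, ← h2]
    exact Finset.sum_congr rfl fun a _ => mul_comm _ _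
  simp only [qv, Finset.sum_mul]
  rw [Finset.sum_comm]
  refine Finset.sum_congr rfl fun b _ => ?_
  rw [← h b, Finset.sum_mul]
  exact Finset.sum_congr rfl fun a _ => by ring

/-- symmetry in the two frame indices -/
theorem fderiv_kerFrame_symm (x t : E4) (e f : Fin 4) :
    fderiv ℝ (fun t => ker F x t * ∑ c, inv F x e c * t c) t
        (WithLp.toLp 2 fun a => F.P x a f) =
      fderiv ℝ (fun t => ker F x t * ∑ c, inv F x f c * t c) t
        (WithLp.toLp 2 fun a => F.P x a e) := by
  rw [(hasFDerivAt_kerFrame x t e).fderiv, (hasFDerivAt_kerFrame x t f).fderiv]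
  have h : ∀ e f, ∑ c, inv F x e c * F.P x c f = (1 : Matrix (Fin 4) (Fin 4) ℝ) e f := by
    intro e f
    rw [← Matrix.mul_apply, inv, Kernel.inv_mul]
  simp only [add_apply, _root_.smul_apply, FunLike.coe_sum,
    Finset.sum_apply, PiLp.proj_apply, smul_eq_mul]
  simp only [mul_assoc, ← Finset.mul_sum, sum_qv_mul_P, h]
  rw [Matrix.one_apply, Matrix.one_apply]
  by_cases he : e = f
  · subst he; rfl
  · simp only [he, Ne.symm he, if_false]; ring

end Vale.Agent.P204.Full.Range
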