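import Vale.Agent.P204.Full.Range.Alg
import Vale.Agent.P204.Full.Range.Ker

/-!
P204, lift of anti-invariant parts: the exact parametrix identity (helper72).
-/

namespace Vale.Agent.P204.Full.Range

open MeasureTheory Filter Topology Set Matrix Vale.Agent.P204.Heart
open scoped ContDiff

/-- unit coefficient array -/
def unitC (i j : Fin 4) : C2 := fun p q => if p = i ∧ q = j then 1 else 0

/-- antisymmetrised space derivative of the parametrix amplitude -/
noncomputable def ampD (F : Frame) (a b i j : Fin 4) (x t : E4) : ℝ :=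
  xPd a (ampP F b i j) x t - xPd b (ampP F a i j) x t

/-- amplitude of the averaged part of the error -/
noncomputable def ampE (F : Frame) (a b i j : Fin 4) (x t : E4) : ℝ :=
  (ampD F a b i j x t - ∑ c, ∑ d, acs F x c a * acs F x d b * ampD F c d i j x t) / 2

/-- amplitude of the part of the error at scale `r` -/
noncomputable def ampS (F : Frame) (a b i j : Fin 4) (x t : E4) : ℝ :=
  (∑ k, basis F x k a b * coord F x k (unitC i j)) * ker F x t

variable {F : Frame}

theorem contDiff_inv (F : Frame) (a b : Fin 4) : ContDiff ℝ ∞ fun x => inv F x a b :=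
  Kernel.contDiff_Pinv F a b

theorem contDiff_acs (F : Frame) (a b : Fin 4) : ContDiff ℝ ∞ fun x => acs F x a b := by
  simp only [acs, Matrix.mul_apply]
  exact ContDiff.sum fun c _ =>
    (ContDiff.sum fun d _ => (F.smooth a d).mul contDiff_const).mul (contDiff_inv F c b)

theorem contDiff_basis (F : Frame) (k : Fin 2) (a b : Fin 4) :
    ContDiff ℝ ∞ fun x => basis F x k a b := by
  simp only [basis, pullC]
  exact ContDiff.sum fun c _ => ContDiff.sum fun d _ =>
    ((contDiff_inv F c a).mul (contDiff_inv F d b)).mul contDiff_const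

theorem contDiff_coord_const (F : Frame) (k : Fin 2) (w : C2) :
    ContDiff ℝ ∞ fun x => coord F x k w := by
  have h : ∀ a b, ContDiff ℝ ∞ fun x => pullC (F.P x) w a b := fun a b => by
    simp only [pullC]
    exact ContDiff.sum fun c _ => ContDiff.sum fun d _ =>
      ((F.smooth c a).mul (F.smooth d b)).mul contDiff_const
  fin_cases k
  · exact ((h 0 2).sub (h 1 3)).div_const 2
  · exact ((h 0 3).add (h 1 2)).div_const 2

theorem isAmp_ampP (hF : NearFrame F) (b i j : Fin 4) : IsAmp 2 (ampP F b i j) :=
  IsAmp.mul_left (g := fun _ _ => 2) contDiff_const <| IsAmp.sum Finset.univ fun k _ =>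
    IsAmp.sum Finset.univ fun c _ =>
      { smooth := (((contDiff_basis F k c b).comp contDiff_fst).mul
          (isAmp_kerCoord hF c).smooth).mul
            ((contDiff_coord_const F k (unitC i j)).comp contDiff_fst)
        support := fun x t ht => by simp [ker_eq_zero hF ht] }

theorem isAmp_ampD (hF : NearFrame F) (a b i j : Fin 4) : IsAmp 2 (ampD F a b i j) :=
  ⟨((isAmp_ampP hF b i j).xPd a).smooth.sub ((isAmp_ampP hF a i j).xPd b).smooth,
    fun x t ht => by
      simp [ampD, ((isAmp_ampP hF b i j).xPd a).support x t ht,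
        ((isAmp_ampP hF a i j).xPd b).support x t ht]⟩

theorem isAmp_ampE (hF : NearFrame F) (a b i j : Fin 4) : IsAmp 2 (ampE F a b i j) :=
  ⟨((isAmp_ampD hF a b i j).smooth.sub (ContDiff.sum fun c _ => ContDiff.sum fun d _ =>
      (((contDiff_acs F c a).comp contDiff_fst).mul ((contDiff_acs F d b).comp contDiff_fst)).mul
        (isAmp_ampD hF c d i j).smooth)).div_const 2,
    fun x t ht => by simp [ampE, (isAmp_ampD hF _ _ _ _).support x t ht]⟩

theorem isAmp_ampS (hF : NearFrame F) (a b i j : Fin 4) : IsAmp 2 (ampS F a b i j) :=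
  IsAmp.mul_left (g := fun x _ => ∑ k, basis F x k a b * coord F x k (unitC i j))
    (ContDiff.sum fun k _ => ((contDiff_basis F k a b).mul
      (contDiff_coord_const F k (unitC i j))).comp contDiff_fst) (isAmp_ker hF)

/-- two slices of a box integral agree once they agree at every nonzero scale -/
theorem setInt_box_congr {r : ℝ} {g h : ℝ × E4 → ℝ} (hg : IntegrableOn g (box 0 r 2))
    (hh : IntegrableOn h (box 0 r 2))
    (e : ∀ s : ℝ, s ≠ 0 →
      (∫ t in Metric.closedBall (0 : E4) 2, g (s, t)) = ∫ t in Metric.closedBall (0 : E4) 2, h (s, t)) :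
    (∫ p in box 0 r 2, g p) = ∫ p in box 0 r 2, h p := by
  rw [box] at hg hh ⊢
  rw [Measure.volume_eq_prod] at hg hh ⊢
  rw [setIntegral_prod _ hg, setIntegral_prod _ hh]
  refine setIntegral_congr_ae measurableSet_Icc ?_
  filter_upwards [(Measure.ae_ne volume (0 : ℝ))] with s hs _ using e s hs

/-- rotation invariance of the kernel: frame symmetry of the first moments of a derivative -/
theorem moment_symm (hF : NearFrame F) (x : E4) {u : E4 → ℝ} (hu : ContDiff ℝ ∞ u) {s : ℝ}
    (hs : s ≠ 0) (e f : Fin 4) :
    ∫ t, (ker F x t * ∑ c, inv F x e c * t c) *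
        fderiv ℝ u (x - s • t) (WithLp.toLp 2 fun a => F.P x a f) =
      ∫ t, (ker F x t * ∑ c, inv F x f c * t c) *
        fderiv ℝ u (x - s • t) (WithLp.toLp 2 fun a => F.P x a e) := by
  have hd : ∀ e f : Fin 4, ∫ t, (ker F x t * ∑ c, inv F x e c * t c) *
      fderiv ℝ u (x - s • t) (WithLp.toLp 2 fun a => F.P x a f) =
        s⁻¹ * ∫ t, fderiv ℝ (fun t => ker F x t * ∑ c, inv F x e c * t c) t
          (WithLp.toLp 2 fun a => F.P x a f) * u (x - s • t) := by
    intro e f
    set v : E4 := WithLp.toLp 2 fun a => F.P x a f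
    set φ : E4 → ℝ := fun t => ker F x t * ∑ c, inv F x e c * t c
    have hφ : ContDiff ℝ ∞ φ := ((contDiff_ker F).comp (contDiff_const.prodMk contDiff_id)).mul
      (ContDiff.sum fun c _ => contDiff_const.mul (Kernel.contDiff_coord c))
    have hφs : HasCompactSupport φ := HasCompactSupport.intro (isCompact_closedBall 0 2) fun t ht => by
      simp [φ, ker_eq_zero hF (show 2 < ‖t‖ by simpa using ht)]
    have hh : ContDiff ℝ ∞ fun t : E4 => u (x - s • t) :=
      hu.comp (contDiff_const.sub (contDiff_id.const_smul s))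
    have h' : ∀ t, fderiv ℝ (fun t : E4 => u (x - s • t)) t v =
        -s * fderiv ℝ u (x - s • t) v := by
      intro t
      have h : HasFDerivAt (fun t : E4 => u (x - s • t))
          ((fderiv ℝ u (x - s • t)).comp (-(s • ContinuousLinearMap.id ℝ E4))) t :=
        (hu.differentiable (by simp) _).hasFDerivAt.comp t
          (((hasFDerivAt_id t).fun_const_smul s).const_sub x)
      rw [h.fderiv]
      simp
    have hφ' : Continuous fun t => fderiv ℝ φ t v :=
      (hφ.continuous_fderiv (by simp)).clm_apply continuous_const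
    have key := integral_mul_fderiv_eq_neg_fderiv_mul_of_integrable (μ := (volume : Measure E4))
      (f := φ) (g := fun t => u (x - s • t)) (v := v)
      ((hφ'.mul hh.continuous).integrable_of_hasCompactSupport (hφs.fderiv_apply ℝ v).mul_right)
      ((hφ.continuous.mul ((hh.continuous_fderiv (by simp)).clm_apply
        continuous_const)).integrable_of_hasCompactSupport hφs.mul_right)
      ((hφ.continuous.mul hh.continuous).integrable_of_hasCompactSupport hφs.mul_right)
      (fun t _ => hφ.differentiable (by simp) t) (fun t _ => hh.differentiable (by simp) t)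
    simp only [h', ← mul_assoc] at key
    have h2 : (fun t => φ t * -s * fderiv ℝ u (x - s • t) v) =
        fun t => -s * (φ t * fderiv ℝ u (x - s • t) v) := funext fun t => by ring
    rw [h2, integral_const_mul, neg_mul, neg_inj] at key
    rw [← key, ← mul_assoc, inv_mul_cancel₀ hs, one_mul]
  rw [hd e f, hd f e]
  congr 2
  funext t
  rw [fderiv_kerFrame_symm]

/-- the fundamental theorem of calculus for the trace -/
theorem trace_moment (hF : NearFrame F) (x : E4) {u : E4 → ℝ} (hu : ContDiff ℝ ∞ u) {r : ℝ}
    (hr : 0 ≤ r) :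
    ∑ c, (∫ p in box 0 r 2, (ker F x p.2 * p.2 c) * pd u c (x - p.1 • p.2)) =
      u x - ∫ t, ker F x t * u (x - r • t) := by
  have hu' : ∀ c, Continuous (pd u c) := fun c => (Op.contDiff_pd hu c).continuous
  have hk : Continuous (ker F x) :=
    ((contDiff_ker F).comp (contDiff_const.prodMk contDiff_id)).continuous
  have hi : ∀ c, IntegrableOn (fun p : ℝ × E4 =>
      (ker F x p.2 * p.2 c) * pd u c (x - p.1 • p.2)) (box 0 r 2) := fun c =>
    integrableOn_opI (isAmp_kerCoord hF c) (hu' c) 0 r x
  rw [← integral_finsetSum _ fun c _ => (hi c).integrable]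
  have heq : (fun p : ℝ × E4 => ∑ c, (ker F x p.2 * p.2 c) * pd u c (x - p.1 • p.2)) =
      fun p => ker F x p.2 * fderiv ℝ u (x - p.1 • p.2) p.2 := by
    funext p
    rw [Op.fderiv_apply_eq_sum, Finset.mul_sum]
    exact Finset.sum_congr rfl fun c _ => by rw [smul_eq_mul, mul_assoc]
  rw [heq]
  have hc : Continuous fun p : ℝ × E4 => ker F x p.2 * fderiv ℝ u (x - p.1 • p.2) p.2 :=
    (hk.comp continuous_snd).mul (((hu.continuous_fderiv (by simp)).comp
      (continuous_const.sub (continuous_fst.smul continuous_snd))).clm_apply continuous_snd)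
  have hint := hc.continuousOn.integrableOn_compact (μ := volume) (isCompact_box 0 r 2)
  rw [box] at hint ⊢
  rw [Measure.volume_eq_prod] at hint ⊢
  rw [setIntegral_prod _ hint]
  rw [integral_integral_swap (by
    rw [IntegrableOn, ← Measure.prod_restrict] at hint
    exact hint)]
  have inner : ∀ t : E4, (∫ s in Icc 0 r, ker F x t * fderiv ℝ u (x - s • t) t) =
      ker F x t * (u x - u (x - r • t)) := by
    intro t
    rw [integral_const_mul, integral_Icc_eq_integral_Ioc, ← intervalIntegral.integral_of_le hr]
    congr 1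
    have hd : ∀ s : ℝ, HasDerivAt (fun s : ℝ => -u (x - s • t)) (fderiv ℝ u (x - s • t) t) s := by
      intro s
      have h := (hu.differentiable (by simp) (x - s • t)).hasFDerivAt.comp_hasDerivAt s
        (((hasDerivAt_id s).smul_const t).const_sub x)
      simp only [Function.comp_def, id_eq, one_smul, map_neg] at h
      have h' := h.neg
      rw [neg_neg] at h'
      exact h'
    rw [intervalIntegral.integral_eq_sub_of_hasDerivAt (fun s _ => hd s)
      (Continuous.intervalIntegrable (((hu.continuous_fderiv (by simp)).comp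
        (continuous_const.sub (continuous_id.smul continuous_const))).clm_apply continuous_const) 0 r)]
    simp [sub_eq_add_neg, add_comm]
  simp only [inner]
  rw [setIntegral_eq_integral_of_forall_compl_eq_zero fun t ht => by
    simp [ker_eq_zero hF (show 2 < ‖t‖ by simpa using ht)]]
  have hks : HasCompactSupport (ker F x) :=
    HasCompactSupport.intro (isCompact_closedBall 0 2) fun t ht =>
      ker_eq_zero hF (by simpa using ht)
  have h1 : Integrable fun t => ker F x t * u x :=
    (hk.mul continuous_const).integrable_of_hasCompactSupport hks.mul_right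
  have h2 : Integrable fun t => ker F x t * u (x - r • t) :=
    (hk.mul (hu.continuous.comp (continuous_const.sub
      (continuous_id.const_smul r)))).integrable_of_hasCompactSupport hks.mul_right
  simp only [mul_sub]
  rw [integral_sub h1 h2, integral_mul_const, integral_ker, one_mul]

variable {η : E4 → C2}

theorem contDiff_entry (hη : ContDiff ℝ ∞ η) (i j : Fin 4) : ContDiff ℝ ∞ fun y => η y i j :=
  (contDiff_pi.1 (contDiff_pi.1 hη i)) j

theorem contDiff_Pop (hF : NearFrame F) (hη : ContDiff ℝ ∞ η) (r : ℝ) :
    ContDiff ℝ ∞ (Pop F r η) :=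
  contDiff_pi.2 fun b => ContDiff.sum fun i _ => ContDiff.sum fun j _ =>
    contDiff_opI (isAmp_ampP hF b i j) (contDiff_entry hη i j) r

theorem pd_opI {a : E4 → E4 → ℝ} (ha : IsAmp 2 a) {f : E4 → ℝ} (hf : ContDiff ℝ ∞ f) (r : ℝ) (c : Fin 4) (x : E4) :
    pd (opI r a f) c x = opI r (xPd c a) f x + opI r a (pd f c) x := by
  rw [pd, fderiv_opI ha hf r x]
  simp only [_root_.add_apply, FunLike.coe_sum, Finset.sum_apply,
    ContinuousLinearMap.smulRight_apply, PiLp.proj_apply, smul_eq_mul]
  congr 1
  · simp [ev4]
  · rw [opI_eq ha r, opI_eq ha r]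
    have hi : IntegrableOn (fun p : ℝ × E4 => a x p.2 • fderiv ℝ f (x - p.1 • p.2)) (box 0 r 2) :=
      integrableOn_opI ha (hf.continuous_fderiv (by simp)) 0 r x
    rw [ContinuousLinearMap.integral_apply hi.integrable]
    exact integral_congr_ae (Eventually.of_forall fun p => by simp [pd])

theorem opI_sum_amp {ι : Type} (s : Finset ι) {b : ι → E4 → E4 → ℝ} (hb : ∀ i ∈ s, IsAmp 2 (b i))
    {f : E4 → ℝ} (hf : Continuous f) (r : ℝ) (x : E4) :
    opI r (fun x t => ∑ i ∈ s, b i x t) f x = ∑ i ∈ s, opI r (b i) f x := by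
  rw [Finset.sum_congr rfl fun i hi => congrFun (opI_eq (hb i hi) r f) x, opI_eq (IsAmp.sum s hb)]
  rw [← integral_finsetSum _ fun i hi => (integrableOn_opI (hb i hi) hf 0 r x).integrable]
  exact integral_congr_ae (Eventually.of_forall fun p => Finset.sum_smul)

/-- first moments of the derivatives of a coordinate of `η` -/
noncomputable def mom (F : Frame) (r : ℝ) (η : E4 → C2) (x : E4) (k : Fin 2) (c a : Fin 4) : ℝ :=
  ∫ p in box 0 r 2, (ker F x p.2 * p.2 c) * pd (fun y => coord F x k (η y)) a (x - p.1 • p.2)

theorem contDiff_coord_comp (hη : ContDiff ℝ ∞ η) (x : E4) (k : Fin 2) :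
    ContDiff ℝ ∞ fun y => coord F x k (η y) := by
  simp only [coord_eq_sum F x k (η _)]
  exact ContDiff.sum fun i _ => ContDiff.sum fun j _ => contDiff_const.mul (contDiff_entry hη i j)

theorem sum_opI_ampP (hF : NearFrame F) (hη : ContDiff ℝ ∞ η) (r : ℝ) (x : E4) (a b : Fin 4) :
    ∑ i, ∑ j, opI r (ampP F b i j) (pd (fun y => η y i j) a) x =
      2 * ∑ k, ∑ c, basis F x k c b * mom F r η x k c a := by
  have hE : ∀ i j, Continuous (pd (fun y => η y i j) a) := fun i j =>
    (Op.contDiff_pd (contDiff_entry hη i j) a).continuous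
  have hM : ∀ k c, IntegrableOn (fun p : ℝ × E4 => basis F x k c b *
      ((ker F x p.2 * p.2 c) * pd (fun y => coord F x k (η y)) a (x - p.1 • p.2))) (box 0 r 2) :=
    fun k c => (integrableOn_opI (isAmp_kerCoord hF c)
      (Op.contDiff_pd (contDiff_coord_comp hη x k) a).continuous 0 r x).const_mul _
  have hL : ∀ i j, IntegrableOn (fun p : ℝ × E4 =>
      ampP F b i j x p.2 * pd (fun y => η y i j) a (x - p.1 • p.2)) (box 0 r 2) := fun i j =>
    integrableOn_opI (isAmp_ampP hF b i j) (hE i j) 0 r x
  simp only [mom, ← integral_const_mul]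
  rw [Finset.sum_congr rfl fun k _ => (integral_finsetSum _ fun c _ => (hM k c).integrable).symm]
  rw [← integral_finsetSum _ fun k _ => integrable_finsetSum _ fun c _ => (hM k c).integrable,
    ← integral_const_mul]
  rw [Finset.sum_congr rfl fun i _ => Finset.sum_congr rfl fun j _ =>
    congrFun (opI_eq (isAmp_ampP hF b i j) r (pd (fun y => η y i j) a)) x]
  simp only [smul_eq_mul]
  rw [Finset.sum_congr rfl fun i _ => (integral_finsetSum _ fun j _ => (hL i j).integrable).symm,
    ← integral_finsetSum _ fun i _ => integrable_finsetSum _ fun j _ => (hL i j).integrable]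
  refine integral_congr_ae (Eventually.of_forall fun p => ?_)
  have hu : ∀ k y, pd (fun y => coord F x k (η y)) a y =
      ∑ i, ∑ j, coord F x k (unitC i j) * pd (fun y => η y i j) a y := by
    intro k y
    have h : (fun y => coord F x k (η y)) =
        fun y => ∑ i, ∑ j, coord F x k (unitC i j) * η y i j :=
      funext fun y => coord_eq_sum F x k (η y)
    rw [pd, h, (HasFDerivAt.fun_sum fun i _ => HasFDerivAt.fun_sum fun j _ =>
      ((contDiff_entry hη i j).differentiable (by simp) y).hasFDerivAt.const_mul
        (coord F x k (unitC i j))).fderiv]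
    simp [pd]
  simp only [hu, ampP, ← show ∀ i j, unitC i j = (fun p q => if p = i ∧ q = j then (1:ℝ) else 0)
    from fun i j => rfl]
  simp only [Fin.sum_univ_four, Fin.sum_univ_two]
  ring

theorem mom_symm (hF : NearFrame F) (hη : ContDiff ℝ ∞ η) (r : ℝ) (x : E4) (k : Fin 2) :
    (inv F x * Matrix.of (mom F r η x k) * F.P x)ᵀ = inv F x * Matrix.of (mom F r η x k) * F.P x := by
  set u := fun y => coord F x k (η y) with hu_def
  have hu : ContDiff ℝ ∞ u := contDiff_coord_comp hη x k
  have hE : ∀ e f, (inv F x * Matrix.of (mom F r η x k) * F.P x) e f =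
      ∫ p in box 0 r 2, (ker F x p.2 * ∑ c, inv F x e c * p.2 c) *
        fderiv ℝ u (x - p.1 • p.2) (WithLp.toLp 2 fun a => F.P x a f) := by
    intro e f
    have hI : ∀ c a, IntegrableOn (fun p : ℝ × E4 => inv F x e c *
        ((ker F x p.2 * p.2 c) * pd u a (x - p.1 • p.2)) * F.P x a f) (box 0 r 2) := fun c a =>
      ((integrableOn_opI (isAmp_kerCoord hF c) (Op.contDiff_pd hu a).continuous 0 r x).const_mul
        _).mul_const _
    simp only [Matrix.mul_apply, Matrix.of_apply, mom, Finset.sum_mul, ← integral_const_mul,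
      ← integral_mul_const, ← hu_def]
    rw [Finset.sum_congr rfl fun a _ => (integral_finsetSum _ fun c _ => (hI c a).integrable).symm,
      ← integral_finsetSum _ fun a _ => integrable_finsetSum _ fun c _ => (hI c a).integrable]
    refine integral_congr_ae (Eventually.of_forall fun p => ?_)
    simp only [Op.fderiv_apply_eq_sum, smul_eq_mul, Finset.mul_sum, Finset.sum_mul]
    exact Finset.sum_congr rfl fun a _ => Finset.sum_congr rfl fun c _ => by ring
  ext e f
  rw [Matrix.transpose_apply, hE, hE]
  have hc : ∀ e f, IntegrableOn (fun p : ℝ × E4 => (ker F x p.2 * ∑ c, inv F x e c * p.2 c) *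
      fderiv ℝ u (x - p.1 • p.2) (WithLp.toLp 2 fun a => F.P x a f)) (box 0 r 2) := fun e f => by
    refine (Continuous.mul ?_ ?_).continuousOn.integrableOn_compact (isCompact_box 0 r 2)
    · exact (((contDiff_ker F).comp (contDiff_const.prodMk contDiff_id)).continuous.mul
        (continuous_finsetSum _ fun c _ => continuous_const.mul
          (Kernel.contDiff_coord c).continuous)).comp continuous_snd
    · exact ((hu.continuous_fderiv (by simp)).comp
        (continuous_const.sub (continuous_fst.smul continuous_snd))).clm_apply continuous_const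
  refine setInt_box_congr (hc f e) (hc e f) fun s hs => ?_
  have hz : ∀ e f, ∀ t ∉ Metric.closedBall (0 : E4) 2,
      (ker F x t * ∑ c, inv F x e c * t c) *
        fderiv ℝ u (x - s • t) (WithLp.toLp 2 fun a => F.P x a f) = 0 := fun e f t ht => by
    simp [ker_eq_zero hF (show 2 < ‖t‖ by simpa using ht)]
  rw [setIntegral_eq_integral_of_forall_compl_eq_zero (hz f e),
    setIntegral_eq_integral_of_forall_compl_eq_zero (hz e f)]
  exact moment_symm hF x hu hs f e

theorem anti_d1 (α : E4 → C1) (x : E4) : Anti (d1 α x) := fun a b => by simp only [d1]; ring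

theorem opI_ampE (hF : NearFrame F) (r : ℝ) {f : E4 → ℝ} (hc : Continuous f) (x : E4)
    (a b i j : Fin 4) :
    opI r (ampE F a b i j) f x = (opI r (ampD F a b i j) f x -
      ∑ c, ∑ d, acs F x c a * acs F x d b * opI r (ampD F c d i j) f x) / 2 := by
  have hD : ∀ c d, Integrable (fun p : ℝ × E4 => acs F x c a * acs F x d b *
      (ampD F c d i j x p.2 • f (x - p.1 • p.2))) (volume.restrict (box 0 r 2)) :=
    fun c d => (integrableOn_opI (isAmp_ampD hF c d i j) hc 0 r x).integrable.const_mul _
  rw [opI_eq (isAmp_ampE hF a b i j), opI_eq (isAmp_ampD hF a b i j)]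
  simp only [fun c d => congrFun (opI_eq (isAmp_ampD hF c d i j) r f) x, ← integral_const_mul]
  rw [Finset.sum_congr rfl fun c _ => (integral_finsetSum _ fun d _ => hD c d).symm,
    ← integral_finsetSum _ fun c _ => integrable_finsetSum _ fun d _ => hD c d,
    ← integral_sub (integrableOn_opI (isAmp_ampD hF a b i j) hc 0 r x).integrable
      (integrable_finsetSum _ fun c _ => integrable_finsetSum _ fun d _ => hD c d),
    ← integral_div]
  refine integral_congr_ae (Eventually.of_forall fun p => ?_)
  simp only [ampE, smul_eq_mul, div_mul_eq_mul_div, sub_mul, Finset.sum_mul, mul_assoc]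

theorem pmC_ampD (hF : NearFrame F) (hη : ContDiff ℝ ∞ η) {r : ℝ} (x : E4) (a b : Fin 4) :
    pmC (acs F x) (fun a b => ∑ i, ∑ j, opI r (ampD F a b i j) (fun y => η y i j) x) a b =
      ∑ i, ∑ j, opI r (ampE F a b i j) (fun y => η y i j) x := by
  have hsum : (fun a b => ∑ i, ∑ j, opI r (ampD F a b i j) (fun y => η y i j) x) =
      ∑ i, ∑ j, (fun a b => opI r (ampD F a b i j) (fun y => η y i j) x : C2) := by
    funext a b
    simp only [Finset.sum_apply]
  rw [hsum, pmC_sum]
  simp only [pmC_sum, Finset.sum_apply]
  refine Finset.sum_congr rfl fun i _ => Finset.sum_congr rfl fun j _ => ?_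
  rw [opI_ampE hF r (contDiff_entry hη i j).continuous x a b i j]
  simp only [pmC, pullC]

/-- the exact identity -/
theorem Eop_eq (hF : NearFrame F) (hη : ContDiff ℝ ∞ η) (hA : ∀ y, Anti (η y)) {r : ℝ}
    (hr : 0 ≤ r) (x : E4) (a b : Fin 4) :
    Eop F r η x a b =
      ∑ i, ∑ j, (opI r (ampE F a b i j) (fun y => η y i j) x -
        opE r (ampS F a b i j) (fun y => η y i j) x) := by
  have hd1 : d1 (Pop F r η) x = (fun a b => ∑ i, ∑ j, opI r (ampD F a b i j) (fun y => η y i j) x) +
      ∑ k, (2 : ℝ) • der (mom F r η x k) (basis F x k) := by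
    funext a b
    have hpd : ∀ a b, pd (fun y => Pop F r η y b) a x =
        (∑ i, ∑ j, opI r (xPd a (ampP F b i j)) (fun y => η y i j) x) +
          2 * ∑ k, ∑ c, basis F x k c b * mom F r η x k c a := by
      intro a b
      rw [← sum_opI_ampP hF hη r x a b, pd,
        show (fun y => Pop F r η y b) = fun y => ∑ i, ∑ j,
          opI r (ampP F b i j) (fun y => η y i j) y from rfl,
        (HasFDerivAt.fun_sum fun i _ => HasFDerivAt.fun_sum fun j _ =>
          ((contDiff_opI (isAmp_ampP hF b i j) (contDiff_entry hη i j) r).differentiable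
            (by simp) x).hasFDerivAt).fderiv]
      simp only [FunLike.coe_sum, Finset.sum_apply, ← Finset.sum_add_distrib]
      exact Finset.sum_congr rfl fun i _ => Finset.sum_congr rfl fun j _ =>
        pd_opI (isAmp_ampP hF b i j) (contDiff_entry hη i j) r a x
    have hsplit : ∀ i j, opI r (ampD F a b i j) (fun y => η y i j) x =
        opI r (xPd a (ampP F b i j)) (fun y => η y i j) x -
          opI r (xPd b (ampP F a i j)) (fun y => η y i j) x := by
      intro i j
      rw [opI_eq (isAmp_ampD hF a b i j), opI_eq ((isAmp_ampP hF b i j).xPd a),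
        opI_eq ((isAmp_ampP hF a i j).xPd b),
        ← integral_sub (integrableOn_opI ((isAmp_ampP hF b i j).xPd a)
          (contDiff_entry hη i j).continuous 0 r x).integrable (integrableOn_opI
            ((isAmp_ampP hF a i j).xPd b) (contDiff_entry hη i j).continuous 0 r x).integrable]
      exact integral_congr_ae (Eventually.of_forall fun p => sub_smul _ _ _)
    simp only [d1, hpd, Pi.add_apply, Finset.sum_apply, Pi.smul_apply, smul_eq_mul, der, hsplit,
      Finset.sum_sub_distrib, Finset.mul_sum, mul_sub]
    simp only [Fin.sum_univ_two, Fin.sum_univ_four]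
    ring
  have hmom : ∀ k, pmC (acs F x) (der (mom F r η x k) (basis F x k)) =
      ((coord F x k (η x) - ∫ t, ker F x t * coord F x k (η (x - r • t))) / 2) • basis F x k := by
    intro k
    have h := pmC_der F x (Matrix.of (mom F r η x k)) (mom_symm hF hη r x k) k
    rw [Equiv.symm_apply_apply] at h
    rw [h]
    congr 2
    exact trace_moment hF x (contDiff_coord_comp hη x k) hr
  have hS : ∀ i j, opE r (ampS F a b i j) (fun y => η y i j) x =
      ∫ t, (∑ k, basis F x k a b * coord F x k (unitC i j)) * (ker F x t * η (x - r • t) i j) :=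
    fun i j => integral_congr_ae (Eventually.of_forall fun t => by simp [ampS, mul_assoc])
  have hI : ∀ i j, Integrable fun t => ker F x t * η (x - r • t) i j := fun i j =>
    (((contDiff_ker F).comp (contDiff_const.prodMk contDiff_id)).continuous.mul
      ((contDiff_entry hη i j).continuous.comp (continuous_const.sub
        (continuous_id.const_smul r)))).integrable_of_hasCompactSupport
      (HasCompactSupport.intro (isCompact_closedBall 0 2) fun t ht => by
        simp [ker_eq_zero hF (show 2 < ‖t‖ by simpa using ht)])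
  have hcoord : ∀ k, ∫ t, ker F x t * coord F x k (η (x - r • t)) =
      ∑ i, ∑ j, coord F x k (unitC i j) * ∫ t, ker F x t * η (x - r • t) i j := by
    intro k
    simp only [← integral_const_mul]
    rw [Finset.sum_congr rfl fun i _ => (integral_finsetSum _ fun j _ =>
      (hI i j).const_mul _).symm, ← integral_finsetSum _ fun i _ =>
        integrable_finsetSum _ fun j _ => (hI i j).const_mul _]
    refine integral_congr_ae (Eventually.of_forall fun t => ?_)
    simp only []
    rw [coord_eq_sum F x k, Finset.mul_sum]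
    refine Finset.sum_congr rfl fun i _ => ?_
    rw [Finset.mul_sum]
    exact Finset.sum_congr rfl fun j _ => by simp only [show ∀ i j, (fun p q => if p = i ∧ q = j then (1:ℝ) else 0) = unitC i j from fun i j => rfl]; ring
  have hE := pmC_ampD hF hη (r := r) x a b
  simp only [Eop]
  rw [hd1, pmC_add, pmC_sum, pmC_acs_eq F x (hA x)]
  simp only [pmC_smul, hmom, Pi.add_apply, hE, Finset.sum_apply, Pi.smul_apply, smul_eq_mul,
    hcoord, hS, integral_const_mul, Finset.sum_sub_distrib]
  simp only [Fin.sum_univ_four, Fin.sum_univ_two]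
  ring

end Vale.Agent.P204.Full.Range
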