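import Vale.Agent.P204.Full.Range.Transfer
import Vale.Agent.P204.Full.Neumann.Kernel
import Vale.Agent.P204.Full.Neumann.Lift

/-!
P204, lift of anti-invariant parts: an operator with smooth kernels in the charts is a finite-rank
operator plus one which is small in `cN 0`, and is bounded in every `cN` by `cN 0` (helper27).
-/

namespace Vale.Agent.P204.Full.Range

open MeasureTheory Function Metric Neumann
open scoped Manifold ContDiff BigOperators

set_option linter.unusedSectionVars false
set_option linter.unusedVariables false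
set_option maxSynthPendingDepth 3

universe u

/-- smooth compactly supported kernels on coefficient fields -/
structure IsKer (k : E4 → E4 → C2 →L[ℝ] C2) : Prop where
  smooth : ContDiff ℝ ∞ (uncurry k)
  compact : HasCompactSupport (uncurry k)

theorem IsKer.integrable {k : E4 → E4 → C2 →L[ℝ] C2} (h : IsKer k) (W : smoothSub) (x : E4) :
    Integrable (fun y => k x y (W.1 y)) volume :=
  (continuous_integrand h.smooth.continuous (contDiff_coe W).continuous x)
    |>.integrable_of_hasCompactSupport (hasCompactSupport_integrand h.compact W.1 x)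

/-- the operator with kernel `k` on smooth fields -/
noncomputable def kopL {k : E4 → E4 → C2 →L[ℝ] C2} (h : IsKer k) : smoothSub →ₗ[ℝ] smoothSub where
  toFun W := ⟨kop volume k W.1, contDiff_kop h.smooth h.compact (contDiff_coe W).continuous⟩
  map_add' U W := by
    refine Subtype.ext (funext fun x => ?_)
    show ∫ y, k x y (U.1 y + W.1 y) = (∫ y, k x y (U.1 y)) + ∫ y, k x y (W.1 y)
    simp only [map_add]
    exact integral_add (h.integrable U x) (h.integrable W x)
  map_smul' r W := by
    refine Subtype.ext (funext fun x => ?_)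
    show ∫ y, k x y (r • W.1 y) = r • ∫ y, k x y (W.1 y)
    simp only [map_smul]
    exact integral_smul r _

theorem kopL_coe {k : E4 → E4 → C2 →L[ℝ] C2} (h : IsKer k) (W : smoothSub) :
    (kopL h W).1 = kop volume k W.1 := rfl

/-- a fixed function times a vector -/
noncomputable def scaleL {f : E4 → ℝ} (hf : ContDiff ℝ ∞ f) : C2 →ₗ[ℝ] smoothSub where
  toFun a := ⟨fun y => f y • a, hf.smul contDiff_const⟩
  map_add' a b := Subtype.ext (funext fun y => smul_add _ _ _)
  map_smul' r a := Subtype.ext (funext fun y => smul_comm _ r a)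

/-- value at a point -/
noncomputable def evalL (c : E4) : smoothSub →ₗ[ℝ] C2 :=
  (LinearMap.proj (R := ℝ) (φ := fun _ : E4 => C2) c).comp smoothSub.subtype

theorem finiteDimensional_range_sum {ι V W : Type*} [AddCommGroup V] [Module ℝ V] [AddCommGroup W]
    [Module ℝ W] (s : Finset ι) (f : ι → V →ₗ[ℝ] W)
    (h : ∀ i ∈ s, FiniteDimensional ℝ (LinearMap.range (f i))) :
    FiniteDimensional ℝ (LinearMap.range (∑ i ∈ s, f i)) := by
  classical
  induction s using Finset.induction with
  | empty =>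
    rw [Finset.sum_empty, LinearMap.range_zero]
    infer_instance
  | insert i s hi ih =>
    rw [Finset.sum_insert hi]
    have := h i (Finset.mem_insert_self i s)
    have := ih fun j hj => h j (Finset.mem_insert_of_mem hj)
    refine Submodule.finiteDimensional_of_le (S₂ := LinearMap.range (f i) ⊔
      LinearMap.range (∑ j ∈ s, f j)) ?_
    rintro _ ⟨v, rfl⟩
    exact Submodule.add_mem_sup (LinearMap.mem_range_self _ v) (LinearMap.mem_range_self _ v)

theorem finiteDimensional_range_through {V U W : Type*} [AddCommGroup V] [Module ℝ V]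
    [AddCommGroup U] [Module ℝ U] [FiniteDimensional ℝ U] [AddCommGroup W] [Module ℝ W]
    (g : U →ₗ[ℝ] W) (f : V →ₗ[ℝ] U) : FiniteDimensional ℝ (LinearMap.range (g.comp f)) :=
  Submodule.finiteDimensional_of_le (LinearMap.range_comp_le_range f g)

variable {M : Type u} [TopologicalSpace M] [ChartedSpace E4 M] [IsManifold (𝓡 4) ∞ M] [T2Space M]

/-- the smoothing operator with the kernels `k i` -/
noncomputable def supOp (S : Setup M) {χ : E4 → ℝ} (hχ : IsCut χ)
    {k : Fin S.at_.n → E4 → E4 → C2 →L[ℝ] C2} (hk : ∀ i, IsKer (k i)) :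
    antiSub S →ₗ[ℝ] antiSub S :=
  ∑ i, (putAnti S i hχ).comp ((kopL (hk i)).comp ((cutRead S i).comp (antiSub S).subtype))

theorem supOp_apply (S : Setup M) {χ : E4 → ℝ} (hχ : IsCut χ)
    {k : Fin S.at_.n → E4 → E4 → C2 →L[ℝ] C2} (hk : ∀ i, IsKer (k i)) (v : antiSub S) :
    supOp S hχ hk v = ∑ i, putAnti S i hχ (kopL (hk i) (cutRead S i v.1)) := by
  simp [supOp]

theorem antiScale_sum_le (S : Setup M) (N : ℕ) (s : Finset (Fin S.at_.n))
    (f : Fin S.at_.n → antiSub S) :
    antiScale S N (∑ i ∈ s, f i) ≤ ∑ i ∈ s, antiScale S N (f i) :=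
  Finset.le_sum_of_subadditive _ (map_zero _).le (map_add_le_add _) _ _

theorem exists_putAnti_kop_le (S : Setup M) (i : Fin S.at_.n) {χ : E4 → ℝ} (hχ : IsCut χ)
    {k : E4 → E4 → C2 →L[ℝ] C2} (hk : IsKer k) (N : ℕ) :
    ∃ D, 0 ≤ D ∧ ∀ v : antiSub S,
      antiScale S N (putAnti S i hχ (kopL hk (cutRead S i v.1))) ≤ D * antiScale S 0 v := by
  obtain ⟨C, hC, h⟩ := exists_putAnti_le S i hχ N
  choose B hB0 hB using fun j : ℕ =>
    exists_norm_iteratedFDeriv_kop_le (μ := (volume : Measure E4)) (G := C2) j hk.smooth hk.compact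
  have hS : 0 ≤ ∑ j ∈ Finset.range (N + 1), B j := Finset.sum_nonneg fun j _ => hB0 j
  refine ⟨C * ∑ j ∈ Finset.range (N + 1), B j, mul_nonneg hC hS, fun v => ?_⟩
  rw [mul_assoc]
  refine h _ _ (mul_nonneg hS (apply_nonneg _ _)) fun j hj y _ => ?_
  refine (hB j _ _ (contDiff_coe _).continuous (apply_nonneg (antiScale S 0) v)
    (fun z _ => norm_cutRead_le S i v.1 z) y).trans ?_
  exact mul_le_mul_of_nonneg_right (Finset.single_le_sum (fun j _ => hB0 j)
    (Finset.mem_range.2 (Nat.lt_succ_of_le hj))) (apply_nonneg _ _)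

/-- the smoothing operator is bounded in every scale by the lowest one -/
theorem exists_supOp_le (S : Setup M) {χ : E4 → ℝ} (hχ : IsCut χ)
    {k : Fin S.at_.n → E4 → E4 → C2 →L[ℝ] C2} (hk : ∀ i, IsKer (k i)) (N : ℕ) :
    ∃ D, 0 ≤ D ∧ ∀ v, antiScale S N (supOp S hχ hk v) ≤ D * antiScale S 0 v := by
  choose D hD0 hD using fun i => exists_putAnti_kop_le S i hχ (hk i) N
  refine ⟨∑ i, D i, Finset.sum_nonneg fun i _ => hD0 i, fun v => ?_⟩
  rw [supOp_apply, Finset.sum_mul]
  exact (antiScale_sum_le S N _ _).trans (Finset.sum_le_sum fun i _ => hD i v)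

/-- one chart: finite rank plus small -/
theorem exists_split_one (S : Setup M) (i : Fin S.at_.n) {χ : E4 → ℝ} (hχ : IsCut χ)
    {k : E4 → E4 → C2 →L[ℝ] C2} (hk : IsKer k) {θ : ℝ} (hθ : 0 < θ) :
    ∃ F : antiSub S →ₗ[ℝ] antiSub S, FiniteDimensional ℝ (LinearMap.range F) ∧
      (∀ v, antiScale S 0 (putAnti S i hχ (kopL hk (cutRead S i v.1)) - F v) ≤
        θ * antiScale S 0 v) ∧
      ∀ N, ∃ D, 0 ≤ D ∧ ∀ v, antiScale S N (F v) ≤ D * antiScale S 0 v := by
  obtain ⟨C, hC, hput⟩ := exists_putAnti_le S i hχ 0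
  obtain ⟨L, η, c, k', hη, -, hk's, hk'c, -, heq, hsmall⟩ :=
    exists_finite_rank_add_small (μ := (volume : Measure E4)) hk.smooth hk.compact
      (ε := θ / (C + 1)) (by positivity)
  have hk' : IsKer k' := ⟨hk's, hk'c⟩
  let g : antiSub S →ₗ[ℝ] smoothSub := (cutRead S i).comp (antiSub S).subtype
  let F : antiSub S →ₗ[ℝ] antiSub S := ∑ l ∈ Finset.range L,
    ((putAnti S i hχ).comp (scaleL (hη l))).comp ((evalL (c l)).comp ((kopL hk).comp g))
  refine ⟨F, finiteDimensional_range_sum _ _ fun l _ => finiteDimensional_range_through _ _,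
    fun v => ?_, fun N => ?_⟩
  · have he : putAnti S i hχ (kopL hk (g v)) - F v = putAnti S i hχ (kopL hk' (g v)) := by
      have hsplit : kopL hk (g v) =
          (∑ l ∈ Finset.range L, scaleL (hη l) (evalL (c l) (kopL hk (g v)))) + kopL hk' (g v) := by
        refine Subtype.ext (funext fun y => ?_)
        rw [Submodule.coe_add, Submodule.coe_sum, Pi.add_apply, Finset.sum_apply]
        exact heq _ (contDiff_coe _).continuous y
      have hFv : F v = ∑ l ∈ Finset.range L,
          putAnti S i hχ (scaleL (hη l) (evalL (c l) (kopL hk (g v)))) := by simp [F]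
      rw [hFv]
      conv_lhs => enter [1]; rw [hsplit, map_add, map_sum]
      exact add_sub_cancel_left _ _
    rw [show kopL hk (cutRead S i v.1) = kopL hk (g v) from rfl, he]
    refine (hput _ (θ / (C + 1) * antiScale S 0 v)
      (mul_nonneg (by positivity) (apply_nonneg _ _)) fun j hj y _ => ?_).trans ?_
    · rw [Nat.le_zero.1 hj, norm_iteratedFDeriv_zero]
      exact hsmall _ _ (apply_nonneg (antiScale S 0) v) (fun z _ => norm_cutRead_le S i v.1 z) y
    · rw [← mul_assoc]
      refine mul_le_mul_of_nonneg_right ?_ (apply_nonneg _ _)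
      calc C * (θ / (C + 1)) ≤ (C + 1) * (θ / (C + 1)) :=
            mul_le_mul_of_nonneg_right (by linarith) (by positivity)
        _ = θ := by field_simp
  · obtain ⟨B, hB0, hB⟩ := exists_norm_iteratedFDeriv_kop_le (μ := (volume : Measure E4))
      (G := C2) 0 hk.smooth hk.compact
    choose A hA0 hA using fun l => exists_le_of_finiteDimensional (normSeminorm ℝ C2)
      ((antiScale S N).comp ((putAnti S i hχ).comp (scaleL (hη l)))) fun x hx => norm_eq_zero.1 hx
    refine ⟨(∑ l ∈ Finset.range L, A l) * B,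
      mul_nonneg (Finset.sum_nonneg fun l _ => hA0 l) hB0, fun v => ?_⟩
    rw [Finset.sum_mul, Finset.sum_mul, show F v = ∑ l ∈ Finset.range L,
      putAnti S i hχ (scaleL (hη l) (evalL (c l) (kopL hk (g v)))) by simp [F]]
    refine (Finset.le_sum_of_subadditive (antiScale S N) (map_zero _).le (map_add_le_add _) _ _).trans
      (Finset.sum_le_sum fun l _ => ?_)
    refine (hA l (evalL (c l) (kopL hk (g v)))).trans ?_
    rw [mul_assoc]
    refine mul_le_mul_of_nonneg_left ?_ (hA0 l)
    have h := hB _ _ (contDiff_coe (g v)).continuous (apply_nonneg (antiScale S 0) v)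
      (fun z _ => norm_cutRead_le S i v.1 z) (c l)
    rw [norm_iteratedFDeriv_zero] at h
    exact h

/-- the smoothing operator is finite rank plus small in the lowest scale -/
theorem exists_supOp_split (S : Setup M) {χ : E4 → ℝ} (hχ : IsCut χ)
    {k : Fin S.at_.n → E4 → E4 → C2 →L[ℝ] C2} (hk : ∀ i, IsKer (k i)) {θ : ℝ} (hθ : 0 < θ) :
    ∃ F : antiSub S →ₗ[ℝ] antiSub S, FiniteDimensional ℝ (LinearMap.range F) ∧
      (∀ v, antiScale S 0 (supOp S hχ hk v - F v) ≤ θ * antiScale S 0 v) ∧
      ∀ N, ∃ D, 0 ≤ D ∧ ∀ v, antiScale S N (F v) ≤ D * antiScale S 0 v := by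
  choose F hF hsmall hbd using fun i =>
    exists_split_one S i hχ (hk i) (θ := θ / (S.at_.n + 1)) (by positivity)
  refine ⟨∑ i, F i, finiteDimensional_range_sum _ _ fun i _ => hF i, fun v => ?_, fun N => ?_⟩
  · rw [supOp_apply, LinearMap.sum_apply,
      show (∑ i, putAnti S i hχ (kopL (hk i) (cutRead S i v.1))) - ∑ i, F i v =
        ∑ i, (putAnti S i hχ (kopL (hk i) (cutRead S i v.1)) - F i v) from
        (Finset.sum_sub_distrib _ _).symm]
    refine (antiScale_sum_le S 0 _ _).trans ((Finset.sum_le_sum fun i _ => hsmall i v).trans ?_)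
    rw [Finset.sum_const, Finset.card_univ, Fintype.card_fin, nsmul_eq_mul, ← mul_assoc]
    refine mul_le_mul_of_nonneg_right ?_ (apply_nonneg _ _)
    calc (S.at_.n : ℝ) * (θ / (S.at_.n + 1)) ≤ (S.at_.n + 1) * (θ / (S.at_.n + 1)) :=
          mul_le_mul_of_nonneg_right (by linarith) (by positivity)
      _ = θ := by field_simp
  · choose D hD0 hD using fun i => hbd i N
    refine ⟨∑ i, D i, Finset.sum_nonneg fun i _ => hD0 i, fun v => ?_⟩
    rw [LinearMap.sum_apply, Finset.sum_mul]
    exact (antiScale_sum_le S N _ _).trans (Finset.sum_le_sum fun i _ => hD i v)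

end Vale.Agent.P204.Full.Range
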