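import Vale.Agent.P204.Full.Range.Glue
import Vale.Agent.P204.Full.Range.Split
import Vale.Agent.P204.Full.Range.Frames

/-!
P204, lift of anti-invariant parts: the bounded lift (helper72, helper27, helper19).
-/

namespace Vale.Agent.P204.Full.Range

set_option maxSynthPendingDepth 3
set_option linter.unusedSectionVars false

open Set Metric
open scoped Manifold ContDiff

universe u

variable {M : Type u} [TopologicalSpace M] [T2Space M] [ChartedSpace E4 M]
  [IsManifold (𝓡 4) ∞ M] (S : Setup M) (Fr : Fin S.at_.n → Heart.Frame)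
  (hFr : ∀ i, NearFrame (Fr i))
  (hJ : ∀ i, ∀ y ∈ closedBall (0 : E4) 3, acs (Fr i) y = readJ (S.at_.chart i) S.J y)

include hFr in
theorem isKer_kSmooth {ε : ℝ} (hε : 0 < ε) (i : Fin S.at_.n) :
    IsKer (kSmooth (Fr i) ε scale) :=
  ⟨contDiff_kSmooth (hFr i) hε scale, hasCompactSupport_kSmooth _ _ _⟩

include hJ in
theorem parT_eq {ε : ℝ} (hε : 0 < ε) (hεs : ε ≤ scale) (u : antiSub S) :
    parT S Fr hFr u = (∑ i, putAnti S i isCut_bumpK (smallF S Fr hFr ε i u.1)) +
      supOp S isCut_bumpK (isKer_kSmooth S Fr hFr hε) u := by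
  rw [parT_split S Fr hFr hJ hε hεs, supOp_apply]
  rfl

include hJ in
theorem exists_parT_le (k : ℕ) {θ : ℝ} (hθ : 0 < θ) :
    ∃ C, 0 ≤ C ∧ ∀ v : antiSub S,
      antiScale S k (parT S Fr hFr v) ≤ θ * antiScale S k v + C * antiScale S 0 v := by
  obtain ⟨A, hA0, hA⟩ := exists_smallF_le S Fr hFr k
  set ε := min scale (θ / (A + 1)) with hεdef
  have hε : 0 < ε := lt_min scale_pos (div_pos hθ (by linarith))
  obtain ⟨D, hD0, hD⟩ := exists_supOp_le S isCut_bumpK (isKer_kSmooth S Fr hFr hε) k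
  refine ⟨D, hD0, fun v => ?_⟩
  rw [parT_eq S Fr hFr hJ hε (min_le_left _ _)]
  refine (map_add_le_add _ _ _).trans (add_le_add ((hA ε hε.le (min_le_left _ _) v).trans ?_) (hD v))
  refine mul_le_mul_of_nonneg_right ?_ (apply_nonneg _ _)
  calc ε * A ≤ θ / (A + 1) * (A + 1) :=
        mul_le_mul (min_le_right _ _) (by linarith) hA0 (div_nonneg hθ.le (by linarith))
    _ = θ := by field_simp

include hFr hJ in
theorem exists_lift_seminorm :
    ∃ C, 0 ≤ C ∧ ∀ z : closedSub M, ∃ z' : closedSub M,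
      pmZ S z' = pmZ S z ∧ S.cN 0 z'.1.1 ≤ C * antiScale S 1 (pmZ S z) := by
  obtain ⟨A, hA0, hA⟩ := exists_smallF_le S Fr hFr 0
  set ε := min scale (1 / (4 * (A + 1))) with hεdef
  have hε : 0 < ε := lt_min scale_pos (by positivity)
  obtain ⟨F, hFfin, hFs, hFb⟩ := exists_supOp_split S isCut_bumpK (isKer_kSmooth S Fr hFr hε)
    (θ := 1 / 4) (by norm_num)
  choose C hC0 hC using fun k => exists_parT_le S Fr hFr hJ (k + 1) (θ := 1 / 2) (by norm_num)
  choose D hD0 hD using hFb
  have h0 : ∀ v, antiScale S 0 (parT S Fr hFr v - F v) ≤ 1 / 2 * antiScale S 0 v := by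
    intro v
    rw [parT_eq S Fr hFr hJ hε (min_le_left _ _), add_sub_assoc]
    refine (map_add_le_add _ _ _).trans ((add_le_add (hA ε hε.le (min_le_left _ _) v) (hFs v)).trans ?_)
    rw [← add_mul]
    refine mul_le_mul_of_nonneg_right ?_ (apply_nonneg _ _)
    calc ε * A + 1 / 4 ≤ 1 / (4 * (A + 1)) * (A + 1) + 1 / 4 :=
          add_le_add (mul_le_mul (min_le_right _ _) (by linarith) hA0 (by positivity)) le_rfl
      _ = 1 / 2 := by field_simp; norm_num
  have hK := topSmall_of_sub (monotone_antiScale S) (T := parT S Fr hFr) (F := F)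
    (θ := 1 / 2) (by norm_num) (by norm_num) hC0 (fun k => hD0 (k + 1)) h0 hC
    (fun k v => hD (k + 1) v)
  obtain ⟨CD, -, hCD⟩ := exists_parD_le S Fr hFr
  exact Neumann.exists_bounded_lift (monotone_antiScale S) hK (seriesComplete_antiScale S)
    (eq_zero_of_antiScale_zero S) (hD 0) (pmZ S) (parD S Fr hFr)
    (fun u => by
      simp only [parT, LinearMap.sub_apply, LinearMap.comp_apply, LinearMap.id_coe, id_eq]
      abel)
    ((cNs S 0).comp (closedSub M).subtype) (N := 1) (CD := CD) hCD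

/-- bounded lift of the anti-invariant part of a closed form -/
theorem liftSpec : LiftSpec S := by
  choose Fr hFr hJ using fun i => exists_frame S i
  obtain ⟨C, -, h⟩ := exists_lift_seminorm S Fr hFr hJ
  refine ⟨1, C, fun w hw => ?_⟩
  obtain ⟨z', hz, hb⟩ := h ⟨w, hw⟩
  exact ⟨z'.1, z'.2, congrArg (fun v : antiSub S => v.1.1) hz, hb⟩

end Vale.Agent.P204.Full.Range
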