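import Vale.Agent.P204.Full.Range.Identity
import Vale.Agent.P204.Full.Neumann.Kernel

/-!
P204, lift of anti-invariant parts: for every small scale `ε` the error of the local parametrix is
a part of size `ε` in every derivative plus an operator with smooth compactly supported kernel
(helper72).
-/

namespace Vale.Agent.P204.Full.Range

open MeasureTheory Filter Topology Set Vale.Agent.P204.Heart
open scoped ContDiff

variable {F : Frame} {a : E4 → E4 → ℝ} {f : E4 → ℝ} {η : E4 → C2} {r ε R : ℝ}

/-! ### averages as kernels -/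

/-- smooth function equal to `1 / s` for `ε ≤ s` -/
noncomputable def invS (ε s : ℝ) : ℝ :=
  s / (s ^ 2 + ε ^ 2 * (1 - Real.smoothTransition (2 * s / ε - 1)))

theorem contDiff_invS (hε : 0 < ε) : ContDiff ℝ ∞ (invS ε) := by
  refine contDiff_id.div ((contDiff_id.pow 2).add (contDiff_const.mul (contDiff_const.sub
    (Real.smoothTransition.contDiff.comp
      (((contDiff_const.mul contDiff_id).div_const ε).sub contDiff_const))))) fun s => ?_
  have h1 : (0 : ℝ) ≤ ε ^ 2 * (1 - Real.smoothTransition (2 * s / ε - 1)) :=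
    mul_nonneg (sq_nonneg _) (sub_nonneg.2 (Real.smoothTransition.le_one _))
  rcases eq_or_ne s 0 with rfl | hs
  · have : Real.smoothTransition (2 * 0 / ε - 1) = 0 :=
      Real.smoothTransition.zero_of_nonpos (by norm_num)
    simp only [this]
    positivity
  · positivity

theorem invS_eq (hε : 0 < ε) {s : ℝ} (hs : ε ≤ s) : invS ε s = s⁻¹ := by
  have hs' : 0 < s := hε.trans_le hs
  have h : Real.smoothTransition (2 * s / ε - 1) = 1 := by
    refine Real.smoothTransition.one_of_one_le ?_
    rw [le_sub_iff_add_le, le_div_iff₀ hε]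
    linarith
  rw [invS, h]
  field_simp
  ring

/-- kernel of the average over the scales between `ε` and `r` -/
noncomputable def tailK (a : E4 → E4 → ℝ) (ε r : ℝ) (x y : E4) : ℝ :=
  ∫ s in Icc ε r, invS ε s ^ 4 * a x (invS ε s • (x - y))

/-- kernel of the average at the scale `r` -/
noncomputable def sclK (a : E4 → E4 → ℝ) (r : ℝ) (x y : E4) : ℝ :=
  r⁻¹ ^ 4 * a x (r⁻¹ • (x - y))

theorem contDiff_tailK (ha : IsAmp R a) (hε : 0 < ε) (r : ℝ) :
    ContDiff ℝ ∞ fun p : E4 × E4 => tailK a ε r p.1 p.2 := by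
  refine contDiff_setInt (μ := (volume : Measure ℝ)) (P := E4 × E4) isCompact_Icc
    (g := fun s p => invS ε s ^ 4 * a p.1 (invS ε s • (p.1 - p.2))) ?_
  have h1 : ContDiff ℝ ∞ fun q : ℝ × (E4 × E4) => invS ε q.1 :=
    (contDiff_invS hε).comp contDiff_fst
  exact (h1.pow 4).mul (ha.smooth.comp ((contDiff_fst.comp contDiff_snd).prodMk
    (h1.smul ((contDiff_fst.comp contDiff_snd).sub (contDiff_snd.comp contDiff_snd)))))

theorem contDiff_sclK (ha : IsAmp R a) (r : ℝ) :
    ContDiff ℝ ∞ fun p : E4 × E4 => sclK a r p.1 p.2 :=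
  contDiff_const.mul (ha.smooth.comp
    (contDiff_fst.prodMk ((contDiff_fst.sub contDiff_snd).const_smul _)))

/-- substitution `y = x - s t` -/
theorem integral_scale {s : ℝ} (hs : 0 < s) (a : E4 → E4 → ℝ) (f : E4 → ℝ) (x : E4) :
    ∫ t, a x t * f (x - s • t) = ∫ y, s⁻¹ ^ 4 * a x (s⁻¹ • (x - y)) * f y := by
  have h := Measure.integral_comp_smul (volume : Measure E4)
    (fun u => a x (s⁻¹ • u) * f (x - u)) s
  have hd : Module.finrank ℝ E4 = 4 := finrank_euclideanSpace_fin
  simp only [smul_smul, inv_mul_cancel₀ hs.ne', one_smul, hd] at h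
  rw [h, smul_eq_mul, abs_of_pos (by positivity), ← inv_pow, ← integral_const_mul]
  rw [← integral_sub_left_eq_self _ (volume : Measure E4) x]
  exact integral_congr_ae (Eventually.of_forall fun y => by simp [mul_assoc])

theorem opE_eq_kernel (hr : 0 < r) (a : E4 → E4 → ℝ) (f : E4 → ℝ) (x : E4) :
    opE r a f x = ∫ y, sclK a r x y * f y := by
  simp only [opE, smul_eq_mul, sclK]
  exact integral_scale hr a f x

theorem opI_eq_small_add_kernel (ha : IsAmp R a) (hf : Continuous f) (hε : 0 < ε) (hεr : ε ≤ r)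
    (x : E4) : opI r a f x = opI ε a f x + ∫ y, tailK a ε r x y * f y := by
  set g : ℝ → ℝ := fun s => ∫ t in Metric.closedBall (0 : E4) R, a x t * f (x - s • t) with hg
  have hb : ∀ p q, ∫ z in box p q R, a x z.2 • f (x - z.1 • z.2) = ∫ s in Icc p q, g s := by
    intro p q
    have hi := integrableOn_opI ha hf p q x
    rw [box, Measure.volume_eq_prod] at hi ⊢
    rw [setIntegral_prod _ hi]
    rfl
  have hgi : ∀ p q, IntegrableOn g (Icc p q) := by
    intro p q
    have hi := integrableOn_opI ha hf p q x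
    rw [box, Measure.volume_eq_prod, IntegrableOn, ← Measure.prod_restrict] at hi
    exact hi.integral_prod_left
  have hgI : ∀ {p q}, p ≤ q → IntervalIntegrable g volume p q := fun {p q} hpq =>
    (intervalIntegrable_iff_integrableOn_Icc_of_le hpq).2 (hgi p q)
  rw [opI_eq ha, opI_eq ha]
  simp only [hb]
  rw [integral_Icc_eq_integral_Ioc, integral_Icc_eq_integral_Ioc,
    ← intervalIntegral.integral_of_le (hε.le.trans hεr), ← intervalIntegral.integral_of_le hε.le,
    ← intervalIntegral.integral_add_adjacent_intervals (hgI hε.le) (hgI hεr),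
    intervalIntegral.integral_of_le hεr, ← integral_Icc_eq_integral_Ioc]
  congr 1
  set G : ℝ → E4 → ℝ := fun s y => invS ε s ^ 4 * a x (invS ε s • (x - y)) * f y with hG
  have hG0 : ∀ s ∈ Icc ε r, ∀ y ∉ Metric.closedBall x (r * R), G s y = 0 := by
    intro s hs y hy
    have hs' : 0 < s := hε.trans_le hs.1
    simp only [hG, invS_eq hε hs.1]
    rw [ha.support, mul_zero, zero_mul]
    rw [norm_smul, norm_inv, Real.norm_eq_abs, abs_of_pos hs', ← div_eq_inv_mul, lt_div_iff₀ hs']
    have hy' : r * R < ‖x - y‖ := by simpa [dist_eq_norm, norm_sub_rev] using hy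
    rcases lt_or_ge R 0 with hR | hR
    · nlinarith [norm_nonneg (x - y)]
    · nlinarith [hs.2]
  have hcont : Continuous fun p : ℝ × E4 => G p.1 p.2 := by
    have h1 : Continuous fun p : ℝ × E4 => invS ε p.1 :=
      (contDiff_invS hε).continuous.comp continuous_fst
    exact ((h1.pow 4).mul (ha.continuous.comp (continuous_const.prodMk
      (h1.smul (continuous_const.sub continuous_snd))))).mul (hf.comp continuous_snd)
  have hlhs : ∫ s in Icc ε r, g s =
      ∫ s in Icc ε r, ∫ y in Metric.closedBall x (r * R), G s y := by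
    refine setIntegral_congr_fun measurableSet_Icc fun s hs => ?_
    rw [setIntegral_eq_integral_of_forall_compl_eq_zero (hG0 s hs), hg]
    simp only [hG, invS_eq hε hs.1]
    rw [setIntegral_eq_integral_of_forall_compl_eq_zero fun t ht => by
      simp [ha.support x t (by simpa using ht)]]
    exact integral_scale (hε.trans_le hs.1) a f x
  rw [hlhs]
  rw [integral_integral_swap (by
    rw [Measure.prod_restrict, ← Measure.volume_eq_prod]
    exact hcont.continuousOn.integrableOn_compact
      (isCompact_Icc.prod (isCompact_closedBall _ _)))]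
  simp only [hG, integral_mul_const, tailK]
  refine setIntegral_eq_integral_of_forall_compl_eq_zero fun y hy => ?_
  rw [← integral_mul_const]
  exact setIntegral_eq_zero_of_forall_eq_zero fun s hs => hG0 s hs y hy

theorem opI_eq_zero (ha : IsAmp 2 a) (hf : ∀ y, 1 < ‖y‖ → f y = 0) (hr : 0 ≤ r) {x : E4}
    (hx : 1 + 2 * r < ‖x‖) : opI r a f x = 0 := by
  rw [opI_eq ha]
  refine setIntegral_eq_zero_of_forall_eq_zero fun p hp => ?_
  have hs : ‖p.1 • p.2‖ ≤ r * 2 := by
    rw [norm_smul, Real.norm_eq_abs, abs_of_nonneg hp.1.1]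
    exact mul_le_mul hp.1.2 (by simpa using hp.2) (norm_nonneg _) hr
  rw [hf _ (lt_of_lt_of_le (by linarith) (norm_sub_norm_le x (p.1 • p.2))), smul_zero]

theorem opE_eq_zero (ha : IsAmp 2 a) (hf : ∀ y, 1 < ‖y‖ → f y = 0) (hr : 0 ≤ r) {x : E4}
    (hx : 1 + 2 * r < ‖x‖) : opE r a f x = 0 := by
  refine integral_eq_zero_of_ae (Eventually.of_forall fun t => ?_)
  show a x t • f (x - r • t) = 0
  rcases lt_or_ge 2 ‖t‖ with ht | ht
  · rw [ha.support x t ht, zero_smul]
  · have hs : ‖r • t‖ ≤ r * 2 := by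
      rw [norm_smul, Real.norm_eq_abs, abs_of_nonneg hr]
      exact mul_le_mul_of_nonneg_left ht hr
    rw [hf _ (lt_of_lt_of_le (by linarith) (norm_sub_norm_le x (r • t))), smul_zero]

/-! ### the two parts of the error -/

/-- evaluation of an entry -/
noncomputable def evC (i j : Fin 4) : C2 →L[ℝ] ℝ :=
  (ContinuousLinearMap.proj (R := ℝ) (φ := fun _ : Fin 4 => ℝ) j).comp
    (ContinuousLinearMap.proj (R := ℝ) (φ := fun _ : Fin 4 => Fin 4 → ℝ) i)

theorem evC_apply (i j : Fin 4) (w : C2) : evC i j w = w i j := rfl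

theorem norm_evC_le (i j : Fin 4) : ‖evC i j‖ ≤ 1 :=
  ContinuousLinearMap.opNorm_le_bound _ zero_le_one fun w => by
    rw [one_mul]
    exact (norm_le_pi_norm (w i) j).trans (norm_le_pi_norm w i)

/-- antisymmetric unit array -/
noncomputable def asU (p q : Fin 4) : C2 := (1 / 2 : ℝ) • (unitC p q - unitC q p)

theorem anti_asU (p q : Fin 4) : Anti (asU p q) := fun c d => by
  simp only [asU, unitC, Pi.smul_apply, Pi.sub_apply, smul_eq_mul]
  rw [if_congr (and_comm (a := d = p) (b := c = q)) rfl rfl,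
    if_congr (and_comm (a := d = q) (b := c = p)) rfl rfl]
  ring

theorem norm_asU_le (p q : Fin 4) : ‖asU p q‖ ≤ 1 :=
  (pi_norm_le_iff_of_nonneg zero_le_one).2 fun c => (pi_norm_le_iff_of_nonneg zero_le_one).2
    fun d => by
      simp only [asU, unitC, Pi.smul_apply, Pi.sub_apply, smul_eq_mul, Real.norm_eq_abs]
      split_ifs <;> norm_num

theorem sum_smul_asU {w : C2} (hw : Anti w) : ∑ p, ∑ q, w p q • asU p q = w := by
  have h : ∀ c d, (∑ p, ∑ q, w p q • asU p q) c d = (1 / 2) * (w c d - w d c) := by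
    intro c d
    simp only [asU, unitC, Finset.sum_apply, Pi.smul_apply, Pi.sub_apply, smul_eq_mul,
      mul_sub, Finset.sum_sub_distrib,
      mul_ite, mul_one, mul_zero, ite_and, Finset.sum_ite_irrel, Finset.sum_ite_eq,
      Finset.mem_univ, if_true, Finset.sum_const_zero]
    ring
  funext c d
  rw [h, hw c d]
  ring

/-- the part of size `ε` -/
noncomputable def wSmall (F : Frame) (ε : ℝ) (η : E4 → C2) (x : E4) : C2 :=
  ∑ p, ∑ q, ∑ i, ∑ j, opI ε (ampE F p q i j) (fun y => η y i j) x • asU p q

/-- cut-off equal to one on the ball of radius two -/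
noncomputable def bumpK : ContDiffBump (0 : E4) :=
  { rIn := 2, rOut := 3, rIn_pos := by norm_num, rIn_lt_rOut := by norm_num }

/-- scalar kernel of the smoothing part -/
noncomputable def kap (F : Frame) (ε r : ℝ) (p q i j : Fin 4) (x y : E4) : ℝ :=
  bumpK x * bumpK y * (tailK (ampE F p q i j) ε r x y - sclK (ampS F p q i j) r x y)

/-- kernel of the smoothing part -/
noncomputable def kSmooth (F : Frame) (ε r : ℝ) (x y : E4) : C2 →L[ℝ] C2 :=
  ∑ p, ∑ q, ∑ i, ∑ j, kap F ε r p q i j x y • (evC i j).smulRight (asU p q)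

theorem contDiff_kap (hF : NearFrame F) (hε : 0 < ε) (r : ℝ) (p q i j : Fin 4) :
    ContDiff ℝ ∞ fun z : E4 × E4 => kap F ε r p q i j z.1 z.2 :=
  ((bumpK.contDiff.comp contDiff_fst).mul (bumpK.contDiff.comp contDiff_snd)).mul
    ((contDiff_tailK (isAmp_ampE hF p q i j) hε r).sub (contDiff_sclK (isAmp_ampS hF p q i j) r))

theorem contDiff_kSmooth (hF : NearFrame F) (hε : 0 < ε) (r : ℝ) :
    ContDiff ℝ ∞ (Function.uncurry (kSmooth F ε r)) :=
  show ContDiff ℝ ∞ fun z : E4 × E4 => ∑ p, ∑ q, ∑ i, ∑ j,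
      kap F ε r p q i j z.1 z.2 • (evC i j).smulRight (asU p q) from
  ContDiff.sum fun p _ => ContDiff.sum fun q _ => ContDiff.sum fun i _ => ContDiff.sum fun j _ =>
    (contDiff_kap hF hε r p q i j).smul contDiff_const

theorem kSmooth_eq_zero {x : E4} (hx : 3 ≤ ‖x‖) (y : E4) : kSmooth F ε r x y = 0 := by
  have : bumpK x = 0 := bumpK.zero_of_le_dist (by simpa [bumpK] using hx)
  simp [kSmooth, kap, this]

theorem hasCompactSupport_kSmooth (F : Frame) (ε r : ℝ) :
    HasCompactSupport (Function.uncurry (kSmooth F ε r)) := by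
  refine HasCompactSupport.intro
    ((isCompact_closedBall (0 : E4) 3).prod (isCompact_closedBall (0 : E4) 3)) fun z hz => ?_
  rw [Set.mem_prod, not_and_or] at hz
  have h : ∀ u : E4, u ∉ Metric.closedBall (0 : E4) 3 → bumpK u = 0 := fun u hu =>
    bumpK.zero_of_le_dist (by simpa [bumpK] using (not_le.1 (by simpa using hu)).le)
  rcases hz with h1 | h1 <;> simp [Function.uncurry, kSmooth, kap, h _ h1]

theorem anti_kSmooth (F : Frame) (ε r : ℝ) (x y : E4) (w : C2) : Anti (kSmooth F ε r x y w) := by
  intro c d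
  simp only [kSmooth, FunLike.coe_sum, Finset.sum_apply, _root_.smul_apply,
    ContinuousLinearMap.smulRight_apply, Pi.smul_apply, smul_eq_mul, ← Finset.sum_neg_distrib]
  refine Finset.sum_congr rfl fun p _ => Finset.sum_congr rfl fun q _ =>
    Finset.sum_congr rfl fun i _ => Finset.sum_congr rfl fun j _ => ?_
  rw [anti_asU p q c d]
  ring

theorem anti_pmC (A : Matrix (Fin 4) (Fin 4) ℝ) {w : C2} (hw : Anti w) : Anti (pmC A w) :=
  fun c d => by simp only [pmC]; rw [hw c d, anti_pullC A hw c d]; ring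

theorem anti_Eop (hA : ∀ y, Anti (η y)) (r : ℝ) (x : E4) : Anti (Eop F r η x) := fun c d => by
  simp only [Eop]
  rw [anti_pmC _ (anti_d1 (Pop F r η) x) c d, anti_pmC _ (hA x) c d]
  ring

theorem anti_wSmall (F : Frame) (ε : ℝ) (η : E4 → C2) (x : E4) : Anti (wSmall F ε η x) := by
  intro c d
  simp only [wSmall, Finset.sum_apply, Pi.smul_apply, smul_eq_mul, ← Finset.sum_neg_distrib]
  refine Finset.sum_congr rfl fun p _ => Finset.sum_congr rfl fun q _ =>
    Finset.sum_congr rfl fun i _ => Finset.sum_congr rfl fun j _ => ?_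
  rw [anti_asU p q c d]
  ring

theorem contDiff_wSmall (hF : NearFrame F) (hη : ContDiff ℝ ∞ η) (ε : ℝ) :
    ContDiff ℝ ∞ (wSmall F ε η) :=
  ContDiff.sum fun p _ => ContDiff.sum fun q _ => ContDiff.sum fun i _ => ContDiff.sum fun j _ =>
    (contDiff_opI (isAmp_ampE hF p q i j) (contDiff_entry hη i j) ε).smul contDiff_const

theorem entry_eq_zero (h0 : ∀ y, 1 < ‖y‖ → η y = 0) (i j : Fin 4) (y : E4) (hy : 1 < ‖y‖) :
    η y i j = 0 := by rw [h0 y hy]; rfl

theorem Pop_eq_zero (hF : NearFrame F) (h0 : ∀ y, 1 < ‖y‖ → η y = 0) (hr : 0 ≤ r) {x : E4}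
    (hx : 1 + 2 * r < ‖x‖) : Pop F r η x = 0 :=
  funext fun b => Finset.sum_eq_zero fun i _ => Finset.sum_eq_zero fun j _ =>
    opI_eq_zero (isAmp_ampP hF b i j) (entry_eq_zero h0 i j) hr hx

theorem wSmall_eq_zero (hF : NearFrame F) (h0 : ∀ y, 1 < ‖y‖ → η y = 0) (hε : 0 ≤ ε) {x : E4}
    (hx : 1 + 2 * ε < ‖x‖) : wSmall F ε η x = 0 :=
  Finset.sum_eq_zero fun p _ => Finset.sum_eq_zero fun q _ => Finset.sum_eq_zero fun i _ =>
    Finset.sum_eq_zero fun j _ => by
      rw [opI_eq_zero (isAmp_ampE hF p q i j) (entry_eq_zero h0 i j) hε hx, zero_smul]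

theorem Eop_eq_zero (hF : NearFrame F) (hη : ContDiff ℝ ∞ η) (hA : ∀ y, Anti (η y))
    (h0 : ∀ y, 1 < ‖y‖ → η y = 0) (hr : 0 ≤ r) {x : E4} (hx : 1 + 2 * r < ‖x‖) :
    Eop F r η x = 0 := by
  funext c d
  rw [Eop_eq hF hη hA hr x c d]
  refine Finset.sum_eq_zero fun i _ => Finset.sum_eq_zero fun j _ => ?_
  rw [opI_eq_zero (isAmp_ampE hF c d i j) (entry_eq_zero h0 i j) hr hx,
    opE_eq_zero (isAmp_ampS hF c d i j) (entry_eq_zero h0 i j) hr hx, sub_zero]

theorem integral_evC {g : E4 → C2} (hg : Integrable g) (c d : Fin 4) :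
    (∫ y, g y) c d = ∫ y, g y c d :=
  ((evC c d).integral_comp_comm hg).symm

/-- the error is the small part plus the smoothing part -/
theorem Eop_split (hF : NearFrame F) (hη : ContDiff ℝ ∞ η) (hA : ∀ y, Anti (η y))
    (h0 : ∀ y, 1 < ‖y‖ → η y = 0) (hε : 0 < ε) (hεr : ε ≤ r) (hr : r ≤ 1 / 4) (x : E4) :
    Eop F r η x = wSmall F ε η x + Neumann.kop volume (kSmooth F ε r) η x := by
  have hr0 : 0 < r := hε.trans_le hεr
  have hK : ∀ p q i j, Continuous fun y =>
      (tailK (ampE F p q i j) ε r x y - sclK (ampS F p q i j) r x y) * η y i j := fun p q i j =>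
    (((contDiff_tailK (isAmp_ampE hF p q i j) hε r).continuous.comp
      (continuous_const.prodMk continuous_id)).sub
      ((contDiff_sclK (isAmp_ampS hF p q i j) r).continuous.comp
        (continuous_const.prodMk continuous_id))).mul (contDiff_entry hη i j).continuous
  have hKi : ∀ p q i j, Integrable fun y =>
      (tailK (ampE F p q i j) ε r x y - sclK (ampS F p q i j) r x y) * η y i j := fun p q i j =>
    (hK p q i j).integrable_of_hasCompactSupport (HasCompactSupport.intro
      (isCompact_closedBall (0 : E4) 1) fun y hy => by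
        simp [entry_eq_zero h0 i j y (by simpa using hy)])
  have hKi' : ∀ p q i j, Integrable fun y => kap F ε r p q i j x y * η y i j := fun p q i j =>
    (((contDiff_kap hF hε r p q i j).continuous.comp
      (continuous_const.prodMk continuous_id)).mul
      (contDiff_entry hη i j).continuous).integrable_of_hasCompactSupport
        (HasCompactSupport.intro (isCompact_closedBall (0 : E4) 1) fun y hy => by
          simp [entry_eq_zero h0 i j y (by simpa using hy)])
  have hker : ∀ p q i j, ∫ y, kap F ε r p q i j x y * η y i j =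
      bumpK x * ((opI r (ampE F p q i j) (fun y => η y i j) x -
        opI ε (ampE F p q i j) (fun y => η y i j) x) -
          opE r (ampS F p q i j) (fun y => η y i j) x) := by
    intro p q i j
    have hT : Integrable fun y => tailK (ampE F p q i j) ε r x y * η y i j :=
      (((contDiff_tailK (isAmp_ampE hF p q i j) hε r).continuous.comp
        (continuous_const.prodMk continuous_id)).mul
        (contDiff_entry hη i j).continuous).integrable_of_hasCompactSupport
          (HasCompactSupport.intro (isCompact_closedBall (0 : E4) 1) fun y hy => by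
            simp [entry_eq_zero h0 i j y (by simpa using hy)])
    have hS : Integrable fun y => sclK (ampS F p q i j) r x y * η y i j :=
      (((contDiff_sclK (isAmp_ampS hF p q i j) r).continuous.comp
        (continuous_const.prodMk continuous_id)).mul
        (contDiff_entry hη i j).continuous).integrable_of_hasCompactSupport
          (HasCompactSupport.intro (isCompact_closedBall (0 : E4) 1) fun y hy => by
            simp [entry_eq_zero h0 i j y (by simpa using hy)])
    rw [opI_eq_small_add_kernel (isAmp_ampE hF p q i j) (contDiff_entry hη i j).continuous hε hεr,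
      opE_eq_kernel hr0, add_sub_cancel_left, ← integral_sub hT hS, ← integral_const_mul]
    refine integral_congr_ae (Eventually.of_forall fun y => ?_)
    simp only [kap]
    rcases le_or_gt ‖y‖ 1 with hy | hy
    · rw [bumpK.one_of_mem_closedBall (show y ∈ Metric.closedBall (0 : E4) bumpK.rIn by
        simpa [bumpK] using hy.trans one_le_two)]
      ring
    · rw [entry_eq_zero h0 i j y hy]
      ring
  have hint : Integrable fun y => kSmooth F ε r x y (η y) :=
    (Neumann.continuous_integrand (contDiff_kSmooth hF hε r).continuous hη.continuous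
      x).integrable_of_hasCompactSupport
        (Neumann.hasCompactSupport_integrand (hasCompactSupport_kSmooth F ε r) η x)
  have hkop : Neumann.kop volume (kSmooth F ε r) η x =
      ∑ p, ∑ q, ∑ i, ∑ j, (∫ y, kap F ε r p q i j x y * η y i j) • asU p q := by
    funext c d
    rw [Neumann.kop, integral_evC hint]
    simp only [Finset.sum_apply, Pi.smul_apply, smul_eq_mul, kSmooth, FunLike.coe_sum,
      _root_.smul_apply, ContinuousLinearMap.smulRight_apply, evC_apply, ← mul_assoc,
      ← integral_mul_const]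
    have hI := fun p q i j => (hKi' p q i j).mul_const (asU p q c d)
    rw [integral_finsetSum _ fun p _ => integrable_finsetSum _ fun q _ =>
      integrable_finsetSum _ fun i _ => integrable_finsetSum _ fun j _ => hI p q i j]
    refine Finset.sum_congr rfl fun p _ => ?_
    rw [integral_finsetSum _ fun q _ => integrable_finsetSum _ fun i _ =>
      integrable_finsetSum _ fun j _ => hI p q i j]
    refine Finset.sum_congr rfl fun q _ => ?_
    rw [integral_finsetSum _ fun i _ => integrable_finsetSum _ fun j _ => hI p q i j]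
    exact Finset.sum_congr rfl fun i _ => integral_finsetSum _ fun j _ => hI p q i j
  rw [hkop]
  rcases le_or_gt ‖x‖ 2 with hx | hx
  · have hb : bumpK x = 1 :=
      bumpK.one_of_mem_closedBall (by simpa [bumpK] using hx)
    simp only [hker, hb, one_mul, wSmall, ← Finset.sum_add_distrib, ← add_smul]
    conv_lhs => rw [← sum_smul_asU (anti_Eop hA r x)]
    refine Finset.sum_congr rfl fun p _ => Finset.sum_congr rfl fun q _ => ?_
    rw [Eop_eq hF hη hA hr0.le x p q]
    simp only [Finset.sum_smul]
    exact Finset.sum_congr rfl fun i _ => Finset.sum_congr rfl fun j _ => by ring_nf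
  · have h1 : 1 + 2 * r < ‖x‖ := by linarith
    have h2 : 1 + 2 * ε < ‖x‖ := by linarith
    rw [Eop_eq_zero hF hη hA h0 hr0.le h1, wSmall_eq_zero hF h0 hε.le h2, zero_add]
    refine (Finset.sum_eq_zero fun p _ => Finset.sum_eq_zero fun q _ => Finset.sum_eq_zero
      fun i _ => Finset.sum_eq_zero fun j _ => ?_).symm
    rw [hker, opI_eq_zero (isAmp_ampE hF p q i j) (entry_eq_zero h0 i j) hr0.le h1,
      opI_eq_zero (isAmp_ampE hF p q i j) (entry_eq_zero h0 i j) hε.le h2,
      opE_eq_zero (isAmp_ampS hF p q i j) (entry_eq_zero h0 i j) hr0.le h1]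
    simp

/-- every derivative of the small part is bounded by `ε` times the derivatives up to that order -/
theorem exists_norm_iteratedFDeriv_wSmall_le (hF : NearFrame F) (n : ℕ) :
    ∃ C, 0 ≤ C ∧ ∀ η : E4 → C2, ContDiff ℝ ∞ η → (∀ y, 1 < ‖y‖ → η y = 0) →
      ∀ ε, 0 ≤ ε → ε ≤ 1 / 4 → ∀ B, (∀ j ≤ n, ∀ y, ‖iteratedFDeriv ℝ j η y‖ ≤ B) →
        ∀ x, ‖iteratedFDeriv ℝ n (wSmall F ε η) x‖ ≤ ε * C * B := by
  choose C hC0 hC using fun p q i j => exists_norm_iteratedFDeriv_opI_le n
    (isAmp_ampE hF p q i j) (S := Metric.closedBall (0 : E4) 4) (isCompact_closedBall _ _)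
  refine ⟨∑ p, ∑ q, ∑ i, ∑ j, C p q i j, Finset.sum_nonneg fun p _ => Finset.sum_nonneg
    fun q _ => Finset.sum_nonneg fun i _ => Finset.sum_nonneg fun j _ => hC0 p q i j,
    fun η hη h0 ε hε hε' B hB x => ?_⟩
  have hB0 : 0 ≤ B := (norm_nonneg _).trans (hB 0 (Nat.zero_le n) 0)
  by_cases hx : x ∈ Metric.closedBall (0 : E4) 2
  · have hin : x ∈ interior (Metric.closedBall (0 : E4) 4) :=
      interior_mono Metric.ball_subset_closedBall
        (by rw [Metric.isOpen_ball.interior_eq]
            exact Metric.closedBall_subset_ball (by norm_num) hx)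
    have hc : ∀ p q i j, ContDiff ℝ n fun y =>
        opI ε (ampE F p q i j) (fun z => η z i j) y • asU p q := fun p q i j =>
      ((contDiff_opI (isAmp_ampE hF p q i j) (contDiff_entry hη i j) ε).smul
        contDiff_const).of_le (mod_cast le_top)
    simp only [Finset.mul_sum, Finset.sum_mul]
    rw [show wSmall F ε η = fun y => ∑ p, ∑ q, ∑ i, ∑ j,
      opI ε (ampE F p q i j) (fun z => η z i j) y • asU p q from rfl]
    rw [iteratedFDeriv_fun_sum_apply fun p _ => (ContDiff.sum fun q _ => ContDiff.sum fun i _ =>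
      ContDiff.sum fun j _ => hc p q i j).contDiffAt]
    refine (norm_sum_le _ _).trans (Finset.sum_le_sum fun p _ => ?_)
    rw [iteratedFDeriv_fun_sum_apply fun q _ => (ContDiff.sum fun i _ =>
      ContDiff.sum fun j _ => hc p q i j).contDiffAt]
    refine (norm_sum_le _ _).trans (Finset.sum_le_sum fun q _ => ?_)
    rw [iteratedFDeriv_fun_sum_apply fun i _ => (ContDiff.sum fun j _ => hc p q i j).contDiffAt]
    refine (norm_sum_le _ _).trans (Finset.sum_le_sum fun i _ => ?_)
    rw [iteratedFDeriv_fun_sum_apply fun j _ => (hc p q i j).contDiffAt]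
    refine (norm_sum_le _ _).trans (Finset.sum_le_sum fun j _ => ?_)
    have h1 := ((ContinuousLinearMap.id ℝ ℝ).smulRight (asU p q)).norm_iteratedFDeriv_comp_left
      (n := n) (x := x) ((contDiff_opI (isAmp_ampE hF p q i j)
        (contDiff_entry hη i j) ε).contDiffAt.of_le (mod_cast le_top)) le_rfl
    have h2 : ‖(ContinuousLinearMap.id ℝ ℝ).smulRight (asU p q)‖ ≤ 1 := by
      rw [ContinuousLinearMap.norm_smulRight_apply]
      exact mul_le_one₀ ContinuousLinearMap.norm_id_le (norm_nonneg _) (norm_asU_le p q)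
    refine (h1.trans (mul_le_of_le_one_left (norm_nonneg _) h2)).trans ?_
    refine hC p q i j (contDiff_entry hη i j) ε hε B (fun k hk y => ?_) x hin
    have h3 := (evC i j).norm_iteratedFDeriv_comp_left (n := k) (x := y)
      (hη.contDiffAt.of_le (mod_cast le_top)) le_rfl
    exact (h3.trans (mul_le_of_le_one_left (norm_nonneg _) (norm_evC_le i j))).trans (hB k hk y)
  · have he : wSmall F ε η =ᶠ[𝓝 x] fun _ => (0 : C2) :=
      eventually_of_mem (Metric.isClosed_closedBall.isOpen_compl.mem_nhds hx) fun y hy =>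
        wSmall_eq_zero hF h0 hε (lt_of_le_of_lt (show 1 + 2 * ε ≤ 2 by linarith) (by simpa using hy))
    rw [(he.iteratedFDeriv ℝ n).eq_of_nhds]
    have hpos : 0 ≤ ε * (∑ p, ∑ q, ∑ i, ∑ j, C p q i j) * B := mul_nonneg (mul_nonneg hε
      (Finset.sum_nonneg fun p _ => Finset.sum_nonneg fun q _ => Finset.sum_nonneg
        fun i _ => Finset.sum_nonneg fun j _ => hC0 p q i j)) hB0
    rcases eq_or_ne n 0 with rfl | hn
    · rw [norm_iteratedFDeriv_zero, norm_zero]
      exact hpos
    · rw [iteratedFDeriv_const_of_ne hn, Pi.zero_apply, norm_zero]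
      exact hpos

/-! ### linearity -/

theorem opI_add (ha : IsAmp R a) {g : E4 → ℝ} (hf : Continuous f) (hg : Continuous g) (r : ℝ)
    (x : E4) : opI r a (fun y => f y + g y) x = opI r a f x + opI r a g x := by
  rw [opI_eq ha, opI_eq ha, opI_eq ha,
    ← integral_add (integrableOn_opI ha hf 0 r x) (integrableOn_opI ha hg 0 r x)]
  simp only [smul_add]

theorem opI_smul (r c : ℝ) (x : E4) : opI r a (fun y => c * f y) x = c * opI r a f x := by
  simp only [opI, smul_eq_mul, ← integral_const_mul]
  congr 1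
  funext p
  ring

theorem Pop_add (hF : NearFrame F) {θ : E4 → C2} (hη : Continuous η) (hθ : Continuous θ) (r : ℝ)
    (x : E4) : Pop F r (η + θ) x = Pop F r η x + Pop F r θ x := by
  funext b
  simp only [Pop, Pi.add_apply, ← Finset.sum_add_distrib]
  exact Finset.sum_congr rfl fun i _ => Finset.sum_congr rfl fun j _ =>
    opI_add (isAmp_ampP hF b i j) ((evC i j).continuous.comp hη) ((evC i j).continuous.comp hθ) r x

theorem Pop_smul (r c : ℝ) (η : E4 → C2) (x : E4) : Pop F r (c • η) x = c • Pop F r η x := by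
  funext b
  simp only [Pop, Pi.smul_apply, smul_eq_mul, Finset.mul_sum, opI_smul]

end Vale.Agent.P204.Full.Range
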