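import Vale.Agent.P204.Full.Global.Read
import Vale.Agent.P204.Full.Op.Defs
import Vale.Agent.P204.Full.Neumann.Series

/-!
P204, lift of anti-invariant parts: the scale of seminorms `cN k` on two-forms (helper27).

`cNs S k` is `S.cN k` as a seminorm; the scale is monotone, definite at level zero and complete for
absolutely summable series. Comparison with bounds on iterated partial derivatives along words.
-/

namespace Vale.Agent.P204.Full.Range

open Set Metric Filter
open scoped Manifold ContDiff Topology BigOperators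

universe u

/-! ### series of functions on an open set -/

section Series

variable {W : Type*} [NormedAddCommGroup W] [NormedSpace ℝ W] [CompleteSpace W]
  {U : Set E4} {v : ℕ → E4 → W} {a : ℕ → ℕ → ℝ}

theorem iteratedFDeriv_tsum_on (hU : IsOpen U) (hUc : IsPreconnected U)
    (hv : ∀ n, ContDiffOn ℝ ∞ (v n) U) (ha : ∀ k, Summable (a k))
    (hb : ∀ k n, ∀ y ∈ U, ‖iteratedFDeriv ℝ k (v n) y‖ ≤ a k n) (k : ℕ) :
    (∀ y ∈ U, iteratedFDeriv ℝ k (fun z => ∑' n, v n z) y = ∑' n, iteratedFDeriv ℝ k (v n) y) ∧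
      DifferentiableOn ℝ (iteratedFDeriv ℝ k fun z => ∑' n, v n z) U := by
  induction k with
  | zero =>
    have h0 : ∀ y ∈ U, iteratedFDeriv ℝ 0 (fun z => ∑' n, v n z) y =
        ∑' n, iteratedFDeriv ℝ 0 (v n) y := fun y _ => by
      simp_rw [iteratedFDeriv_zero_eq_comp, Function.comp_apply]
      exact (continuousMultilinearCurryFin0 ℝ E4 W).symm.toContinuousLinearEquiv.map_tsum
    refine ⟨h0, fun y hy => ?_⟩
    have hd : ∀ n z, z ∈ U → HasFDerivAt (iteratedFDeriv ℝ 0 (v n))
        (fderiv ℝ (iteratedFDeriv ℝ 0 (v n)) z) z := fun n z hz =>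
      (((hv n).contDiffAt (hU.mem_nhds hz)).differentiableAt_iteratedFDeriv
        (by exact_mod_cast ENat.natCast_lt_top _)).hasFDerivAt
    have hs : Summable fun n => iteratedFDeriv ℝ 0 (v n) y :=
      Summable.of_norm_bounded (ha 0) fun n => hb 0 n y hy
    refine (((hasFDerivAt_tsum_of_isPreconnected (ha 1) hU hUc hd (fun n z hz => by
      rw [norm_fderiv_iteratedFDeriv]; exact hb 1 n z hz) hy hs hy).congr_of_eventuallyEq
      (eventually_of_mem (hU.mem_nhds hy) h0)).differentiableAt).differentiableWithinAt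
  | succ k ih =>
    have hd : ∀ j n z, z ∈ U → HasFDerivAt (iteratedFDeriv ℝ j (v n))
        (fderiv ℝ (iteratedFDeriv ℝ j (v n)) z) z := fun j n z hz =>
      (((hv n).contDiffAt (hU.mem_nhds hz)).differentiableAt_iteratedFDeriv
        (by exact_mod_cast ENat.natCast_lt_top _)).hasFDerivAt
    have hs : ∀ j, ∀ y ∈ U, Summable fun n => iteratedFDeriv ℝ j (v n) y := fun j y hy =>
      Summable.of_norm_bounded (ha j) fun n => hb j n y hy
    have hT : ∀ j, ∀ y ∈ U, HasFDerivAt (fun z => ∑' n, iteratedFDeriv ℝ j (v n) z)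
        (∑' n, fderiv ℝ (iteratedFDeriv ℝ j (v n)) y) y := fun j y hy =>
      hasFDerivAt_tsum_of_isPreconnected (ha (j + 1)) hU hUc (hd j) (fun n z hz => by
        rw [norm_fderiv_iteratedFDeriv]; exact hb (j + 1) n z hz) hy (hs j y hy) hy
    have h1 : ∀ y ∈ U, iteratedFDeriv ℝ (k + 1) (fun z => ∑' n, v n z) y =
        ∑' n, iteratedFDeriv ℝ (k + 1) (v n) y := by
      intro y hy
      have he : fderiv ℝ (iteratedFDeriv ℝ k fun z => ∑' n, v n z) y =
          ∑' n, fderiv ℝ (iteratedFDeriv ℝ k (v n)) y :=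
        ((hT k y hy).congr_of_eventuallyEq (eventually_of_mem (hU.mem_nhds hy) ih.1)).fderiv
      simp only [iteratedFDeriv_succ_eq_comp_left, Function.comp_apply, he]
      exact (continuousMultilinearCurryLeftEquiv ℝ
        (fun _ : Fin (k + 1) => E4) W).symm.toContinuousLinearEquiv.map_tsum
    exact ⟨h1, fun y hy => (((hT (k + 1) y hy).congr_of_eventuallyEq
      (eventually_of_mem (hU.mem_nhds hy) h1)).differentiableAt).differentiableWithinAt⟩

theorem contDiffOn_tsum (hU : IsOpen U) (hUc : IsPreconnected U)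
    (hv : ∀ n, ContDiffOn ℝ ∞ (v n) U) (ha : ∀ k, Summable (a k))
    (hb : ∀ k n, ∀ y ∈ U, ‖iteratedFDeriv ℝ k (v n) y‖ ≤ a k n) :
    ContDiffOn ℝ ∞ (fun z => ∑' n, v n z) U :=
  contDiffOn_of_differentiableOn (n := (⊤ : ℕ∞)) fun k _ =>
    (iteratedFDeriv_tsum_on hU hUc hv ha hb k).2.congr fun _ hy =>
      iteratedFDerivWithin_of_isOpen k hU hy

theorem norm_iteratedFDeriv_tsum_on_le (hU : IsOpen U) (hUc : IsPreconnected U)
    (hv : ∀ n, ContDiffOn ℝ ∞ (v n) U) (ha : ∀ k, Summable (a k))
    (hb : ∀ k n, ∀ y ∈ U, ‖iteratedFDeriv ℝ k (v n) y‖ ≤ a k n) (k : ℕ) {y : E4} (hy : y ∈ U) :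
    ‖iteratedFDeriv ℝ k (fun z => ∑' n, v n z) y‖ ≤ ∑' n, a k n := by
  rw [(iteratedFDeriv_tsum_on hU hUc hv ha hb k).1 y hy]
  exact tsum_of_norm_bounded (ha k).hasSum fun n => hb k n y hy

end Series

/-! ### the seminorms -/

variable {M : Type u} [TopologicalSpace M] [ChartedSpace E4 M]

theorem exists_chart_ball (S : Setup M) (x : M) :
    ∃ i, x ∈ (S.at_.chart i).source ∧ S.at_.chart i x ∈ ball (0 : E4) 1 := by
  have h : ∃ i, S.at_.rho i x ≠ 0 := by
    by_contra h
    simp only [not_exists, not_not] at h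
    simpa [h] using S.at_.rho_sum x
  obtain ⟨i, hi⟩ := h
  exact ⟨i, S.at_.rho_support i (subset_tsupport _ hi)⟩

theorem closedBall_three_subset (S : Setup M) (i : Fin S.at_.n) :
    closedBall (0 : E4) 3 ⊆ (S.at_.chart i).target :=
  (closedBall_subset_closedBall (by norm_num)).trans (S.at_.ball_subset i)

variable [IsManifold (𝓡 4) ∞ M]

theorem contDiffOn_read (S : Setup M) (w : Form M) (i : Fin S.at_.n) :
    ContDiffOn ℝ ∞ (S.read i w.1) (S.at_.chart i).target :=
  IsTwoForm.contDiffOn_readC w.2 (S.at_.mem_maximal i)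

theorem contDiffAt_read (S : Setup M) (w : Form M) (i : Fin S.at_.n) {y : E4}
    (hy : y ∈ closedBall (0 : E4) 3) : ContDiffAt ℝ ∞ (S.read i w.1) y :=
  (contDiffOn_read S w i).contDiffAt
    ((S.at_.chart i).open_target.mem_nhds (closedBall_three_subset S i hy))

theorem continuousOn_norm_iteratedFDeriv_read (S : Setup M) (w : Form M) (i : Fin S.at_.n)
    (j : ℕ) : ContinuousOn (fun y => ‖iteratedFDeriv ℝ j (S.read i w.1) y‖)
      (closedBall (0 : E4) 3) := by
  intro y hy
  have h := ((contDiffOn_read S w i).continuousOn_iteratedFDerivWithin (m := j)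
    (by exact_mod_cast le_top) (S.at_.chart i).open_target.uniqueDiffOn).congr
    fun z hz => (iteratedFDerivWithin_of_isOpen j (S.at_.chart i).open_target hz).symm
  exact (h.norm.mono (closedBall_three_subset S i)) y hy

theorem bddAbove_read (S : Setup M) (w : Form M) (i : Fin S.at_.n) (j : ℕ) :
    BddAbove (Set.range fun z : closedBall (0 : E4) 3 =>
      ‖iteratedFDeriv ℝ j (S.read i w.1) z‖) := by
  have h := (isCompact_closedBall (0 : E4) 3).bddAbove_image
    (continuousOn_norm_iteratedFDeriv_read S w i j)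
  rw [Set.image_eq_range] at h
  exact h

theorem norm_iteratedFDeriv_le_cN (S : Setup M) (w : Form M) (i : Fin S.at_.n) {j N : ℕ}
    (hj : j ≤ N) {y : E4} (hy : y ∈ closedBall (0 : E4) 3) :
    ‖iteratedFDeriv ℝ j (S.read i w.1) y‖ ≤ S.cN N w.1 := by
  set g : ℕ → Fin S.at_.n → ℝ := fun l k =>
    ⨆ z : closedBall (0 : E4) 3, ‖iteratedFDeriv ℝ l (S.read k w.1) z‖ with hg
  have hg0 : ∀ l k, 0 ≤ g l k := fun l k => Real.iSup_nonneg fun z => norm_nonneg _
  refine (le_ciSup (bddAbove_read S w i j) ⟨y, hy⟩).trans ?_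
  calc g j i ≤ ∑ l ∈ Finset.range (N + 1), g l i :=
        Finset.single_le_sum (f := fun l => g l i) (fun l _ => hg0 l i)
          (Finset.mem_range.2 (Nat.lt_succ_of_le hj))
    _ ≤ ∑ k, ∑ l ∈ Finset.range (N + 1), g l k :=
        Finset.single_le_sum (f := fun k => ∑ l ∈ Finset.range (N + 1), g l k)
          (fun k _ => Finset.sum_nonneg fun l _ => hg0 l k) (Finset.mem_univ i)

/-- a bound on all chart derivatives on the open ball gives a bound on `cN` -/
theorem cN_le_of_bound (S : Setup M) (w : Form M) (N : ℕ) {b : ℕ → ℝ} (hb0 : ∀ j, 0 ≤ b j)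
    (hb : ∀ i, ∀ j ≤ N, ∀ y ∈ ball (0 : E4) 3, ‖iteratedFDeriv ℝ j (S.read i w.1) y‖ ≤ b j) :
    S.cN N w.1 ≤ S.at_.n * ∑ j ∈ Finset.range (N + 1), b j := by
  refine (Finset.sum_le_sum fun i _ => Finset.sum_le_sum fun j hj =>
    Real.iSup_le (fun y => ?_) (hb0 j)).trans (le_of_eq (by simp))
  have hc : closure (ball (0 : E4) 3) = closedBall 0 3 := closure_ball _ (by norm_num)
  exact le_on_closure (f := fun z => ‖iteratedFDeriv ℝ j (S.read i w.1) z‖) (g := fun _ => b j)
    (fun z hz => hb i j (Nat.lt_succ_iff.1 (Finset.mem_range.1 hj)) z hz)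
    (by rw [hc]; exact continuousOn_norm_iteratedFDeriv_read S w i j) continuousOn_const
    (by rw [hc]; exact y.2)

/-- `cN k` as a seminorm on forms -/
noncomputable def cNs (S : Setup M) (k : ℕ) : Seminorm ℝ (Form M) :=
  Seminorm.of (fun w => S.cN k w.1)
    (fun v w => by
      refine le_trans (Finset.sum_le_sum fun i _ => Finset.sum_le_sum fun j hj =>
        Real.iSup_le (a := (⨆ y : closedBall (0 : E4) 3, ‖iteratedFDeriv ℝ j (S.read i v.1) y‖) +
          ⨆ y : closedBall (0 : E4) 3, ‖iteratedFDeriv ℝ j (S.read i w.1) y‖) (fun y => ?_)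
          (add_nonneg (Real.iSup_nonneg fun _ => norm_nonneg _)
            (Real.iSup_nonneg fun _ => norm_nonneg _))) (le_of_eq ?_)
      · have he : S.read i (v + w).1 = S.read i v.1 + S.read i w.1 := rfl
        rw [he, iteratedFDeriv_add_apply
          ((contDiffAt_read S v i y.2).of_le (by exact_mod_cast le_top))
          ((contDiffAt_read S w i y.2).of_le (by exact_mod_cast le_top))]
        exact (norm_add_le _ _).trans
          (add_le_add (le_ciSup (bddAbove_read S v i j) y) (le_ciSup (bddAbove_read S w i j) y))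
      · simp only [Setup.cN, Finset.sum_add_distrib])
    (fun r w => by
      simp only [Setup.cN, Finset.mul_sum]
      refine Finset.sum_congr rfl fun i _ => Finset.sum_congr rfl fun j _ => ?_
      rw [Real.mul_iSup_of_nonneg (norm_nonneg r)]
      refine iSup_congr fun y => ?_
      have he : S.read i (r • w).1 = r • S.read i w.1 := rfl
      rw [he, iteratedFDeriv_const_smul_apply
        ((contDiffAt_read S w i y.2).of_le (by exact_mod_cast le_top)), norm_smul])

theorem cNs_apply (S : Setup M) (k : ℕ) (w : Form M) : cNs S k w = S.cN k w.1 := rfl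

theorem monotone_cNs (S : Setup M) : Monotone (cNs S) := fun k l hkl w => by
  show S.cN k w.1 ≤ S.cN l w.1
  exact Finset.sum_le_sum fun _ _ => Finset.sum_le_sum_of_subset_of_nonneg
    (Finset.range_mono (Nat.succ_le_succ hkl)) fun _ _ _ => Real.iSup_nonneg fun _ => norm_nonneg _

theorem norm_read_le_cN (S : Setup M) (w : Form M) (i : Fin S.at_.n) {y : E4}
    (hy : y ∈ closedBall (0 : E4) 3) : ‖S.read i w.1 y‖ ≤ S.cN 0 w.1 := by
  simpa using norm_iteratedFDeriv_le_cN S w i (le_refl 0) hy

theorem eq_zero_of_cN_zero (S : Setup M) (w : Form M) (h : cNs S 0 w = 0) : w = 0 := by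
  refine Subtype.ext (funext fun x => funext fun p => funext fun q => ?_)
  obtain ⟨i, hs, hx⟩ := exists_chart_ball S x
  have h0 : readC (S.at_.chart i) w.1 (S.at_.chart i x) = 0 :=
    norm_le_zero_iff.1 ((norm_read_le_cN S w i
      (closedBall_subset_closedBall (by norm_num) (ball_subset_closedBall hx))).trans h.le)
  rw [(IsTwoForm.isAltField w.2).apply_eq_readC (S.at_.mem_maximal i) hs, h0]
  simp

/-! ### completeness -/

theorem summable_apply (S : Setup M) (v : ℕ → Form M)
    (hv : Summable fun n => S.cN 0 (v n).1) (x : M) (p q : E4) :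
    Summable fun n => (v n).1 x p q := by
  obtain ⟨i, hs, hx⟩ := exists_chart_ball S x
  have hy : S.at_.chart i x ∈ closedBall (0 : E4) 3 :=
    closedBall_subset_closedBall (by norm_num) (ball_subset_closedBall hx)
  have hab : ∀ a b, Summable fun n => S.read i (v n).1 (S.at_.chart i x) a b := fun a b =>
    Summable.of_norm_bounded hv fun n =>
      ((norm_le_pi_norm (S.read i (v n).1 (S.at_.chart i x) a) b).trans
        (norm_le_pi_norm (S.read i (v n).1 (S.at_.chart i x)) a)).trans
        (norm_read_le_cN S (v n) i hy)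
  have hsum : Summable fun n => ∑ a : Fin 4, ∑ b : Fin 4, dMap (S.at_.chart i) x p a *
      dMap (S.at_.chart i) x q b * S.read i (v n).1 (S.at_.chart i x) a b :=
    summable_sum fun a _ => summable_sum fun b _ => (hab a b).mul_left _
  exact hsum.congr fun n =>
    ((IsTwoForm.isAltField (v n).2).apply_eq_readC (S.at_.mem_maximal i) hs p q).symm

omit [IsManifold (𝓡 4) ∞ M] in
theorem hasSum_read (S : Setup M) {v : ℕ → Form M} {s : M → E4 → E4 → ℝ}
    (hs : ∀ x p q, HasSum (fun n => (v n).1 x p q) (s x p q)) (m : ℕ) (i : Fin S.at_.n) (y : E4) :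
    HasSum (fun n => S.read i (v (n + m)).1 y)
      (S.read i s y - ∑ l ∈ Finset.range m, S.read i (v l).1 y) :=
  (hasSum_nat_add_iff' m).2 (Pi.hasSum.2 fun _ => Pi.hasSum.2 fun _ => hs _ _ _)

omit [IsManifold (𝓡 4) ∞ M] in
theorem isAltField_of_hasSum {v : ℕ → Form M} {s : M → E4 → E4 → ℝ}
    (hs : ∀ x p q, HasSum (fun n => (v n).1 x p q) (s x p q)) : IsAltField s := by
  refine ⟨fun x p => ⟨fun q q' => ?_, fun r q => ?_⟩, fun x p q => ?_⟩
  · exact (hs x p (q + q')).unique (((hs x p q).add (hs x p q')).congr_fun fun n =>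
      ((IsTwoForm.isAltField (v n).2).1 x p).map_add q q')
  · exact (hs x p (r • q)).unique (((hs x p q).const_smul r).congr_fun fun n =>
      ((IsTwoForm.isAltField (v n).2).1 x p).map_smul r q)
  · exact (hs x q p).unique ((hs x p q).neg.congr_fun fun n =>
      (IsTwoForm.isAltField (v n).2).2 x p q)

theorem contDiffOn_read_of_hasSum (S : Setup M) {v : ℕ → Form M} {s : M → E4 → E4 → ℝ}
    (hv : ∀ k, Summable fun n => S.cN k (v n).1)
    (hs : ∀ x p q, HasSum (fun n => (v n).1 x p q) (s x p q)) (i : Fin S.at_.n) :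
    ContDiffOn ℝ ∞ (S.read i s) (ball (0 : E4) 3) := by
  have he : S.read i s = fun y => ∑' n, S.read i (v n).1 y := funext fun y => by
    simpa using (hasSum_read S hs 0 i y).tsum_eq.symm
  rw [he]
  exact contDiffOn_tsum (a := fun k n => S.cN k (v n).1) isOpen_ball
    (convex_ball _ _).isPreconnected
    (fun n => (contDiffOn_read S (v n) i).mono
      (ball_subset_closedBall.trans (closedBall_three_subset S i)))
    hv fun k n y hy => norm_iteratedFDeriv_le_cN S (v n) i le_rfl (ball_subset_closedBall hy)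

theorem isTwoForm_of_hasSum (S : Setup M) {v : ℕ → Form M} {s : M → E4 → E4 → ℝ}
    (hv : ∀ k, Summable fun n => S.cN k (v n).1)
    (hs : ∀ x p q, HasSum (fun n => (v n).1 x p q) (s x p q)) : IsTwoForm s :=
  isTwoForm_of_readC (isAltField_of_hasSum hs) fun x => by
    obtain ⟨i, hs', hx⟩ := exists_chart_ball S x
    exact ⟨S.at_.chart i, S.at_.mem_maximal i, hs',
      (contDiffOn_read_of_hasSum S hv hs i).contDiffAt
        (isOpen_ball.mem_nhds (ball_subset_ball (by norm_num) hx))⟩

theorem cN_tail_le (S : Setup M) {v : ℕ → Form M} (s : Form M)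
    (hv : ∀ k, Summable fun n => S.cN k (v n).1)
    (hs : ∀ x p q, HasSum (fun n => (v n).1 x p q) (s.1 x p q)) (k n : ℕ) :
    cNs S k (s - ∑ l ∈ Finset.range n, v l) ≤
      S.at_.n * ∑ j ∈ Finset.range (k + 1), ∑' l, S.cN j (v (l + n)).1 := by
  refine cN_le_of_bound S _ k (b := fun j => ∑' l, S.cN j (v (l + n)).1)
    (fun j => tsum_nonneg fun l => apply_nonneg (cNs S j) _) fun i j _ y hy => ?_
  have he : S.read i (s - ∑ l ∈ Finset.range n, v l).1 =
      fun z => ∑' l, S.read i (v (l + n)).1 z := by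
    funext z
    rw [(hasSum_read S hs n i z).tsum_eq, Submodule.coe_sub, Submodule.coe_sum]
    simp only [Setup.read, readC_sub, readC_sum, Pi.sub_apply, Finset.sum_apply]
  rw [he]
  exact norm_iteratedFDeriv_tsum_on_le isOpen_ball (convex_ball _ _).isPreconnected
    (fun l => (contDiffOn_read S (v (l + n)) i).mono
      (ball_subset_closedBall.trans (closedBall_three_subset S i)))
    (a := fun j l => S.cN j (v (l + n)).1)
    (fun j => (summable_nat_add_iff (f := fun l => S.cN j (v l).1) n).2 (hv j))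
    (fun j l z hz => norm_iteratedFDeriv_le_cN S _ i le_rfl (ball_subset_closedBall hz)) j hy

/-- absolutely summable series of forms have a pointwise sum, approached in every `cN k` -/
theorem exists_form_sum (S : Setup M) (v : ℕ → Form M)
    (hv : ∀ k, Summable fun n => S.cN k (v n).1) :
    ∃ s : Form M, (∀ x p q, HasSum (fun n => (v n).1 x p q) (s.1 x p q)) ∧
      ∀ k, Tendsto (fun n => cNs S k (s - ∑ i ∈ Finset.range n, v i)) atTop (𝓝 0) := by
  have hs : ∀ x p q, HasSum (fun n => (v n).1 x p q) (∑' n, (v n).1 x p q) := fun x p q =>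
    (summable_apply S v (hv 0) x p q).hasSum
  refine ⟨⟨_, isTwoForm_of_hasSum S hv hs⟩, hs, fun k => ?_⟩
  have hlim : Tendsto (fun n => (S.at_.n : ℝ) *
      ∑ j ∈ Finset.range (k + 1), ∑' l, S.cN j (v (l + n)).1) atTop (𝓝 0) := by
    have h := (tendsto_finsetSum (Finset.range (k + 1))
      fun j _ => tendsto_sum_nat_add fun l => S.cN j (v l).1).const_mul (S.at_.n : ℝ)
    simpa using h
  exact squeeze_zero (fun n => apply_nonneg _ _) (fun n => cN_tail_le S _ hv hs k n) hlim

theorem seriesComplete_cNs (S : Setup M) : Neumann.SeriesComplete (cNs S) := fun v hv =>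
  let ⟨s, _, h⟩ := exists_form_sum S v hv
  ⟨s, h⟩

/-- anti-invariant forms -/
noncomputable def antiSub (S : Setup M) : Submodule ℝ (Form M) where
  carrier := {w | pm S.J w.1 = w.1}
  zero_mem' := by funext x p q; simp [pm]
  add_mem' := by
    intro v w hv hw
    funext x p q
    have h1 := congrFun (congrFun (congrFun hv x) p) q
    have h2 := congrFun (congrFun (congrFun hw x) p) q
    simp only [pm, Submodule.coe_add, Pi.add_apply] at h1 h2 ⊢
    linarith
  smul_mem' := by
    intro r w hw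
    funext x p q
    have h1 := congrFun (congrFun (congrFun hw x) p) q
    simp only [pm, SetLike.val_smul, Pi.smul_apply, smul_eq_mul] at h1 ⊢
    rw [← mul_sub, mul_div_assoc, h1]

omit [IsManifold (𝓡 4) ∞ M] in
theorem mem_antiSub {S : Setup M} {w : Form M} : w ∈ antiSub S ↔ pm S.J w.1 = w.1 := Iff.rfl

/-- the scale on anti-invariant forms -/
noncomputable def antiScale (S : Setup M) (k : ℕ) : Seminorm ℝ (antiSub S) :=
  (cNs S k).comp (antiSub S).subtype

theorem antiScale_apply (S : Setup M) (k : ℕ) (w : antiSub S) :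
    antiScale S k w = S.cN k w.1.1 := rfl

theorem monotone_antiScale (S : Setup M) : Monotone (antiScale S) := fun _ _ hkl w =>
  monotone_cNs S hkl w.1

theorem eq_zero_of_antiScale_zero (S : Setup M) (w : antiSub S) (h : antiScale S 0 w = 0) :
    w = 0 :=
  Subtype.ext (eq_zero_of_cN_zero S w.1 h)

theorem seriesComplete_antiScale (S : Setup M) : Neumann.SeriesComplete (antiScale S) := by
  intro v hv
  obtain ⟨s, hs, h⟩ := exists_form_sum S (fun n => (v n).1) hv
  have hmem : s ∈ antiSub S := by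
    funext x p q
    refine HasSum.unique ?_ (hs x p q)
    have h1 := ((hs x p q).sub (hs x (S.J x p) (S.J x q))).div_const 2
    refine h1.congr_fun fun n => ?_
    exact (congrFun (congrFun (congrFun (v n).2 x) p) q).symm
  refine ⟨⟨s, hmem⟩, fun k => ?_⟩
  simpa [antiScale, Seminorm.comp_apply] using h k

/-! ### derivatives along words -/

theorem pdW_eq_iteratedFDeriv {W : Type} [NormedAddCommGroup W] [NormedSpace ℝ W] {U : Set E4}
    (hU : IsOpen U) {f : E4 → W} (hf : ContDiffOn ℝ ∞ f U) (z : List (Fin 4)) :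
    ∀ y ∈ U, Op.pdW z f y = iteratedFDeriv ℝ z.length f y (fun j => ev4 (z.get j)) := by
  induction z with
  | nil => intro y _; simp [Op.pdW]
  | cons a z ih =>
    intro y hy
    have hd : HasFDerivAt (iteratedFDeriv ℝ z.length f)
        (fderiv ℝ (iteratedFDeriv ℝ z.length f) y) y :=
      ((hf.contDiffAt (hU.mem_nhds hy)).differentiableAt_iteratedFDeriv
        (by exact_mod_cast ENat.natCast_lt_top _)).hasFDerivAt
    let m : Fin z.length → E4 := fun j => ev4 (z.get j)
    have h2 := (((ContinuousMultilinearMap.apply ℝ (fun _ : Fin z.length => E4) W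
      m).hasFDerivAt).comp y hd).congr_of_eventuallyEq
      (f₁ := Op.pdW z f) (eventually_of_mem (hU.mem_nhds hy) fun q hq => ih q hq)
    show fderiv ℝ (Op.pdW z f) y (ev4 a) = _
    rw [h2.fderiv]
    exact (iteratedFDeriv_succ_apply_left (fun j => ev4 ((a :: z).get j))).symm

theorem norm_ev4 (a : Fin 4) : ‖ev4 a‖ = 1 := by simp [ev4]

theorem pdW_read_eq (S : Setup M) (w : Form M) (i : Fin S.at_.n) (a b : Fin 4)
    (z : List (Fin 4)) {y : E4} (hy : y ∈ (S.at_.chart i).target) :
    Op.pdW z (fun q => S.read i w.1 q a b) y =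
      iteratedFDeriv ℝ z.length (S.read i w.1) y (fun j => ev4 (z.get j)) a b := by
  let L : C2 →L[ℝ] ℝ := (ContinuousLinearMap.proj (R := ℝ) (φ := fun _ : Fin 4 => ℝ) b).comp
    (ContinuousLinearMap.proj (R := ℝ) (φ := fun _ : Fin 4 => Fin 4 → ℝ) a)
  have hU := (S.at_.chart i).open_target
  show Op.pdW z (L ∘ S.read i w.1) y = _
  rw [pdW_eq_iteratedFDeriv hU (f := L ∘ S.read i w.1)
      (L.contDiff.comp_contDiffOn (contDiffOn_read S w i)) z y hy,
    L.iteratedFDeriv_comp_left ((contDiffOn_read S w i).contDiffAt (hU.mem_nhds hy))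
      (by exact_mod_cast le_top)]
  rfl

/-- word derivatives of the components are bounded by `cN` -/
theorem abs_pdW_read_le_cN (S : Setup M) (w : Form M) (i : Fin S.at_.n) (a b : Fin 4)
    {z : List (Fin 4)} {k : ℕ} (hz : z.length ≤ k) {y : E4} (hy : y ∈ closedBall (0 : E4) 3) :
    |Op.pdW z (fun q => S.read i w.1 q a b) y| ≤ S.cN k w.1 := by
  rw [pdW_read_eq S w i a b z (closedBall_three_subset S i hy), ← Real.norm_eq_abs]
  refine ((norm_le_pi_norm _ b).trans (norm_le_pi_norm _ a)).trans ?_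
  refine ((iteratedFDeriv ℝ z.length (S.read i w.1) y).le_opNorm _).trans ?_
  simpa [norm_ev4] using norm_iteratedFDeriv_le_cN S w i hz hy

/-- bounds on word derivatives of the components on the open ball bound `cN` -/
theorem exists_cN_le_of_pdW (S : Setup M) (k : ℕ) :
    ∃ C, 0 ≤ C ∧ ∀ (w : Form M) (B : ℝ), 0 ≤ B →
      (∀ i a b (z : List (Fin 4)), z.length ≤ k → ∀ y ∈ ball (0 : E4) 3,
        |Op.pdW z (fun q => S.read i w.1 q a b) y| ≤ B) → S.cN k w.1 ≤ C * B := by
  refine ⟨S.at_.n * ∑ j ∈ Finset.range (k + 1), (4 : ℝ) ^ j, by positivity, fun w B hB h => ?_⟩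
  refine (cN_le_of_bound S w k (b := fun j => (4 : ℝ) ^ j * B) (fun j => by positivity)
    fun i j hj y hy => ?_).trans (le_of_eq (by rw [← Finset.sum_mul, mul_assoc]))
  refine ContinuousMultilinearMap.opNorm_le_bound (by positivity) fun v => ?_
  set T := iteratedFDeriv ℝ j (S.read i w.1) y
  have hT : ∀ r : Fin j → Fin 4, ‖T fun l => ev4 (r l)‖ ≤ B := by
    intro r
    refine (pi_norm_le_iff_of_nonneg hB).2 fun a => (pi_norm_le_iff_of_nonneg hB).2 fun b => ?_
    have hlen : (List.ofFn r).length = j := List.length_ofFn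
    have hk := h i a b (List.ofFn r) (hlen.le.trans hj) y hy
    rw [pdW_read_eq S w i a b _ (closedBall_three_subset S i (ball_subset_closedBall hy))] at hk
    suffices hT' : iteratedFDeriv ℝ (List.ofFn r).length (S.read i w.1) y
        (fun l => ev4 ((List.ofFn r).get l)) = T fun l => ev4 (r l) by
      rwa [hT', ← Real.norm_eq_abs] at hk
    have hg : ∀ (n : ℕ) (e : n = j) (g : Fin n → E4), (∀ l, g l = ev4 (r (Fin.cast e l))) →
        iteratedFDeriv ℝ n (S.read i w.1) y g = T fun l => ev4 (r l) := by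
      intro n e g hgl
      subst e
      exact congrArg _ (funext fun l => by simpa using hgl l)
    exact hg _ hlen _ fun l => by rw [List.get_ofFn]
  calc ‖T v‖ = ‖∑ r : Fin j → Fin 4, (∏ l, v l (r l)) • T fun l => ev4 (r l)‖ := by
        conv_lhs => rw [show v = fun l => ∑ a, v l a • ev4 a from funext fun l => (sum_ev4 _).symm,
          T.map_sum]
        simp only [T.map_smul_univ]
    _ ≤ ∑ _r : Fin j → Fin 4, (∏ l, ‖v l‖) * B := by
        refine (norm_sum_le _ _).trans (Finset.sum_le_sum fun r _ => ?_)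
        rw [norm_smul, norm_prod]
        exact mul_le_mul (Finset.prod_le_prod (fun _ _ => norm_nonneg _)
          fun l _ => PiLp.norm_apply_le _ _) (hT r) (norm_nonneg _)
          (Finset.prod_nonneg fun _ _ => norm_nonneg _)
    _ = 4 ^ j * B * ∏ l, ‖v l‖ := by simp; ring

/-! ### assembling the contraction -/

/-- a map which is small at top order, minus a smoothing part removing its lowest-order part -/
theorem topSmall_of_sub {X : Type*} [AddCommGroup X] [Module ℝ X] {p : ℕ → Seminorm ℝ X}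
    (hp : Monotone p) {T F : X →ₗ[ℝ] X} {θ : ℝ} (hθ0 : 0 ≤ θ) (hθ1 : θ < 1) {C D : ℕ → ℝ}
    (hC : ∀ k, 0 ≤ C k) (hD : ∀ k, 0 ≤ D k) (h0 : ∀ v, p 0 (T v - F v) ≤ θ * p 0 v)
    (hT : ∀ k v, p (k + 1) (T v) ≤ θ * p (k + 1) v + C k * p 0 v)
    (hF : ∀ k v, p (k + 1) (F v) ≤ D k * p 0 v) :
    Neumann.TopSmall p (T - F) θ (fun k => C k + D k) where
  θ_nonneg := hθ0
  θ_lt := hθ1
  C_nonneg k := add_nonneg (hC k) (hD k)
  zero v := h0 v
  succ k v := by
    have h := map_sub_le_add (p (k + 1)) (T v) (F v)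
    have hm : p 0 v ≤ p k v := hp (Nat.zero_le k) v
    have := mul_le_mul_of_nonneg_left hm (add_nonneg (hC k) (hD k))
    rw [LinearMap.sub_apply]
    nlinarith [hT k v, hF k v]

end Vale.Agent.P204.Full.Range
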